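import Mathlib

set_option autoImplicit false
open MeasureTheory
open scoped ENNReal

namespace Crest.Agent.R211

abbrev E2 := EuclideanSpace ℝ (Fin 2)
abbrev E3 := EuclideanSpace ℝ (Fin 3)

/-- Area of the parallelogram spanned by two vectors. -/
noncomputable def par (a b : E3) : ℝ := Real.sqrt (‖a‖ ^ 2 * ‖b‖ ^ 2 - inner ℝ a b ^ 2)

theorem par_nonneg (a b : E3) : 0 ≤ par a b := Real.sqrt_nonneg _

/-- triple product -/
def trip (a b c : E3) : ℝ :=
  a 0 * (b 1 * c 2 - b 2 * c 1) - a 1 * (b 0 * c 2 - b 2 * c 0) + a 2 * (b 0 * c 1 - b 1 * c 0)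

theorem inner3 (a b : E3) : inner ℝ a b = a 0 * b 0 + a 1 * b 1 + a 2 * b 2 := by
  simp [PiLp.inner_apply, Fin.sum_univ_three, mul_comm]

theorem normsq3 (a : E3) : ‖a‖ ^ 2 = a 0 ^ 2 + a 1 ^ 2 + a 2 ^ 2 := by
  rw [← real_inner_self_eq_norm_sq, inner3]; ring

theorem inner2 (a b : E2) : inner ℝ a b = a 0 * b 0 + a 1 * b 1 := by
  simp [PiLp.inner_apply, Fin.sum_univ_two, mul_comm]

theorem normsq2 (a : E2) : ‖a‖ ^ 2 = a 0 ^ 2 + a 1 ^ 2 := by
  rw [← real_inner_self_eq_norm_sq, inner2]; ring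

/-- the linear map `(s,t) ↦ s a + t b` -/
noncomputable def lin2 (a b : E3) : E2 →ₗ[ℝ] E3 where
  toFun p := p 0 • a + p 1 • b
  map_add' p q := by simp only [PiLp.add_apply, add_smul]; abel
  map_smul' c p := by simp only [PiLp.smul_apply, smul_eq_mul, RingHom.id_apply, smul_add, mul_smul]

theorem normDet_lin2 (a b : E3) : (lin2 a b).normDet = par a b := by
  have h := (lin2 a b).normDet_sq_eq_det_gram (EuclideanSpace.basisFun (Fin 2) ℝ)
  have h2 : (lin2 a b).normDet ^ 2 = ‖a‖ ^ 2 * ‖b‖ ^ 2 - inner ℝ a b ^ 2 := by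
    have : ((((lin2 a b).normDet ^ 2 : ℝ)) : ℝ) = _ := h
    rw [this, Matrix.det_fin_two]
    simp [lin2, Matrix.gram_apply, real_inner_comm]
    ring
  rw [par, ← h2, Real.sqrt_sq (LinearMap.normDet_nonneg _)]

/-- measurable equivalence between the Euclidean plane and `ℝ × ℝ` -/
noncomputable def e2 : E2 ≃ᵐ ℝ × ℝ :=
  (MeasurableEquiv.toLp 2 (Fin 2 → ℝ)).symm.trans (MeasurableEquiv.finTwoArrow)

theorem e2_apply (p : E2) : e2 p = (p 0, p 1) := rfl

theorem e2_mp : MeasurePreserving e2 volume volume :=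
  (volume_preserving_finTwoArrow ℝ).comp (EuclideanSpace.volume_preserving_symm_measurableEquiv_toLp (Fin 2))

theorem vol_e2_preimage (S : Set (ℝ × ℝ)) : volume (e2 ⁻¹' S) = volume S :=
  e2_mp.measure_preimage_equiv S

theorem area_image (c a b : E3) (S : Set (ℝ × ℝ)) :
    μHE[2] ((fun z : ℝ × ℝ => c + z.1 • a + z.2 • b) '' S) = ENNReal.ofReal (par a b) * volume S := by
  have h1 := (lin2 a b).euclideanHausdorffMeasure_image_eq_normDet_mul_volume (e2 ⁻¹' S)
  rw [normDet_lin2, vol_e2_preimage] at h1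
  have hr : Module.finrank ℝ E2 = 2 := by simp
  rw [hr] at h1
  rw [← h1]
  have h2 : (fun z : ℝ × ℝ => c + z.1 • a + z.2 • b) '' S
      = (fun y => c + y) '' (lin2 a b '' (e2 ⁻¹' S)) := by
    ext x
    simp only [Set.mem_image, Set.mem_preimage, exists_exists_and_eq_and]
    constructor
    · rintro ⟨z, hz, rfl⟩
      refine ⟨!₂[z.1, z.2], ?_, ?_⟩
      · simpa [e2_apply] using hz
      · simp [lin2, add_assoc]
    · rintro ⟨p, hp, rfl⟩
      exact ⟨e2 p, hp, by simp [lin2, e2_apply, add_assoc]⟩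
  rw [h2]
  exact (isometry_add_left c).euclideanHausdorffMeasure_image _

def stdTri : Set (ℝ × ℝ) := {z | 0 ≤ z.1 ∧ 0 ≤ z.2 ∧ z.1 + z.2 ≤ 1}

theorem vol_stdTri : volume stdTri = ENNReal.ofReal (1 / 2) := by
  have hm : MeasurableSet stdTri := by
    unfold stdTri
    measurability
  rw [Measure.volume_eq_prod, Measure.prod_apply hm]
  have : ∀ x : ℝ, volume (Prod.mk x ⁻¹' stdTri) =
      (Set.Icc (0:ℝ) 1).indicator (fun x => ENNReal.ofReal (1 - x)) x := by
    intro x
    by_cases hx : x ∈ Set.Icc (0:ℝ) 1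
    · rw [Set.indicator_of_mem hx]
      have : Prod.mk x ⁻¹' stdTri = Set.Icc 0 (1 - x) := by
        ext y
        simp only [stdTri, Set.mem_preimage, Set.mem_ofPred_eq, Set.mem_Icc]
        constructor
        · rintro ⟨_, h2, h3⟩; exact ⟨h2, by linarith⟩
        · rintro ⟨h2, h3⟩; exact ⟨hx.1, h2, by linarith⟩
      rw [this, Real.volume_Icc, sub_zero]
    · rw [Set.indicator_of_notMem hx]
      have : Prod.mk x ⁻¹' stdTri = ∅ := by
        ext y
        simp only [stdTri, Set.mem_preimage, Set.mem_ofPred_eq, Set.mem_empty_iff_false, iff_false]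
        rintro ⟨h1, h2, h3⟩
        exact hx ⟨h1, by linarith⟩
      rw [this, measure_empty]
  simp_rw [this]
  rw [lintegral_indicator measurableSet_Icc, ← ofReal_integral_eq_lintegral_ofReal]
  · congr 1
    rw [integral_Icc_eq_integral_Ioc, ← intervalIntegral.integral_of_le zero_le_one,
      intervalIntegral.integral_sub (by simp) (by simp)]
    simp
    norm_num
  · exact (continuous_const.sub continuous_id).integrableOn_Icc
  · filter_upwards [ae_restrict_mem measurableSet_Icc] with x hx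
    have := hx.2
    simp only [Pi.zero_apply]; linarith

theorem mem_tri_iff {V : Type*} [AddCommGroup V] [Module ℝ V] (p q r x : V) :
    x ∈ convexHull ℝ ({p, q, r} : Set V) ↔
      ∃ s t : ℝ, 0 ≤ s ∧ 0 ≤ t ∧ s + t ≤ 1 ∧ x = p + s • (q - p) + t • (r - p) := by
  constructor
  · intro hx
    have hc : Convex ℝ {x : V | ∃ s t : ℝ, 0 ≤ s ∧ 0 ≤ t ∧ s + t ≤ 1 ∧
        x = p + s • (q - p) + t • (r - p)} := by
      rintro x ⟨s, t, hs, ht, hst, rfl⟩ y ⟨s', t', hs', ht', hst', rfl⟩ a b ha hb hab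
      refine ⟨a * s + b * s', a * t + b * t', by positivity, by positivity, by nlinarith, ?_⟩
      obtain rfl : b = 1 - a := by linarith
      module
    refine convexHull_min ?_ hc hx
    intro y hy
    simp only [Set.mem_insert_iff, Set.mem_singleton_iff] at hy
    rcases hy with rfl | rfl | rfl
    · exact ⟨0, 0, le_rfl, le_rfl, by norm_num, by simp⟩
    · exact ⟨1, 0, by norm_num, le_rfl, by norm_num, by simp⟩
    · exact ⟨0, 1, le_rfl, by norm_num, by norm_num, by simp⟩
  · rintro ⟨s, t, hs, ht, hst, rfl⟩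
    have hp : p ∈ convexHull ℝ ({p, q, r} : Set V) := subset_convexHull _ _ (by simp)
    have hq : q ∈ convexHull ℝ ({p, q, r} : Set V) := subset_convexHull _ _ (by simp)
    have hr : r ∈ convexHull ℝ ({p, q, r} : Set V) := subset_convexHull _ _ (by simp)
    have := (convex_convexHull ℝ ({p, q, r} : Set V)).sum_mem (t := (Finset.univ : Finset (Fin 3)))
      (w := ![1 - s - t, s, t]) (z := ![p, q, r])
      (by intro i _; fin_cases i <;> simp <;> linarith)
      (by simp [Fin.sum_univ_three]; ring) (by intro i _; fin_cases i <;> simpa)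
    convert this using 1
    simp [Fin.sum_univ_three]
    module

theorem tri_eq_image (p q r : E3) : convexHull ℝ ({p, q, r} : Set E3) =
    (fun z : ℝ × ℝ => p + z.1 • (q - p) + z.2 • (r - p)) '' stdTri := by
  ext x
  rw [mem_tri_iff]
  constructor
  · rintro ⟨s, t, hs, ht, hst, rfl⟩
    exact ⟨(s, t), ⟨hs, ht, hst⟩, rfl⟩
  · rintro ⟨⟨s, t⟩, ⟨hs, ht, hst⟩, rfl⟩
    exact ⟨s, t, hs, ht, hst, rfl⟩

theorem area_tri (p q r : E3) :
    μHE[2] (convexHull ℝ ({p, q, r} : Set E3)) = ENNReal.ofReal (par (q - p) (r - p) / 2) := by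
  rw [tri_eq_image, area_image, vol_stdTri, ← ENNReal.ofReal_mul (par_nonneg _ _)]
  congr 1; ring

theorem area_tri_toReal (p q r : E3) :
    (μHE[2] (convexHull ℝ ({p, q, r} : Set E3))).toReal = par (q - p) (r - p) / 2 := by
  rw [area_tri, ENNReal.toReal_ofReal (by have := par_nonneg (q - p) (r - p); positivity)]

theorem area_par (c a b : E3) :
    μHE[2] {x : E3 | ∃ s ∈ Set.Icc (0 : ℝ) 1, ∃ t ∈ Set.Icc (0 : ℝ) 1, x = c + s • a + t • b}
      = ENNReal.ofReal (par a b) := by
  have : {x : E3 | ∃ s ∈ Set.Icc (0 : ℝ) 1, ∃ t ∈ Set.Icc (0 : ℝ) 1, x = c + s • a + t • b}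
      = (fun z : ℝ × ℝ => c + z.1 • a + z.2 • b) '' (Set.Icc (0 : ℝ) 1 ×ˢ Set.Icc (0 : ℝ) 1) := by
    ext x
    constructor
    · rintro ⟨s, hs, t, ht, rfl⟩
      exact ⟨(s, t), ⟨hs, ht⟩, rfl⟩
    · rintro ⟨⟨s, t⟩, ⟨hs, ht⟩, rfl⟩
      exact ⟨s, hs, t, ht, rfl⟩
  rw [this, area_image, Measure.volume_eq_prod, Measure.prod_prod]
  simp

/-- orthogonal projection along a nonzero vector -/
noncomputable def proj (u y : E3) : E3 := y - (inner ℝ y u / ‖u‖ ^ 2) • u

theorem proj_sub (u x y : E3) : proj u (x - y) = proj u x - proj u y := by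
  simp only [proj, inner_sub_left, sub_div, sub_smul]; abel

theorem proj_add (u x y : E3) : proj u (x + y) = proj u x + proj u y := by
  simp only [proj, inner_add_left, add_div, add_smul]; abel

theorem proj_smul (u x : E3) (c : ℝ) : proj u (c • x) = c • proj u x := by
  simp only [proj, real_inner_smul_left, smul_sub, smul_smul, mul_div_assoc]

theorem proj_self {u : E3} (hu : u ≠ 0) : proj u u = 0 := by
  have : ‖u‖ ≠ 0 := norm_ne_zero_iff.mpr hu
  simp only [proj, real_inner_self_eq_norm_sq]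
  rw [div_self (by positivity)]; simp

theorem inner_proj {u : E3} (hu : u ≠ 0) (y : E3) : inner ℝ (proj u y) u = 0 := by
  have : ‖u‖ ≠ 0 := norm_ne_zero_iff.mpr hu
  simp only [proj, inner_sub_left, real_inner_smul_left, real_inner_self_eq_norm_sq]
  field_simp
  ring

theorem proj_unit {u : E3} (hu : ‖u‖ = 1) (y : E3) : proj u y = y - inner ℝ y u • u := by
  simp [proj, hu]

theorem par_proj {u : E3} (hu : u ≠ 0) (a b : E3) :
    par (proj u a) (proj u b) = |trip a b u| / ‖u‖ := by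
  have h0 : 0 < ‖u‖ := norm_pos_iff.mpr hu
  have hN : 0 < u 0 ^ 2 + u 1 ^ 2 + u 2 ^ 2 := by rw [← normsq3]; positivity
  have : ‖proj u a‖ ^ 2 * ‖proj u b‖ ^ 2 - inner ℝ (proj u a) (proj u b) ^ 2
      = (|trip a b u| / ‖u‖) ^ 2 := by
    rw [div_pow, sq_abs]
    simp only [normsq3, inner3, proj, PiLp.sub_apply, PiLp.smul_apply, smul_eq_mul, trip]
    field_simp
    ring
  rw [par, this, Real.sqrt_sq (by positivity)]

theorem par_smul (a b : E3) (s t : ℝ) : par (s • a) (t • b) = |s| * |t| * par a b := by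
  have : ‖s • a‖ ^ 2 * ‖t • b‖ ^ 2 - inner ℝ (s • a) (t • b) ^ 2
      = (|s| * |t|) ^ 2 * (‖a‖ ^ 2 * ‖b‖ ^ 2 - inner ℝ a b ^ 2) := by
    simp only [norm_smul, real_inner_smul_left, real_inner_smul_right, mul_pow, Real.norm_eq_abs,
      sq_abs]
    ring
  rw [par, this, Real.sqrt_mul (by positivity), Real.sqrt_sq (by positivity), par]

theorem par_self (a : E3) : par a a = 0 := by
  simp only [par, real_inner_self_eq_norm_sq]
  rw [show ‖a‖ ^ 2 * ‖a‖ ^ 2 - (‖a‖ ^ 2) ^ 2 = 0 by ring, Real.sqrt_zero]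

/-- A bounded subset of a plane has finite area. -/
theorem area_ne_top {u : E3} (hu : u ≠ 0) {S : Set E3} (hS : Bornology.IsBounded S)
    (h : ∀ x ∈ S, inner ℝ x u = 0) : μHE[2] S ≠ ∞ := by
  let W : Submodule ℝ E3 := (ℝ ∙ u)ᗮ
  have hW : Module.finrank ℝ W = 2 := by
    have : Fact (Module.finrank ℝ E3 = 2 + 1) := ⟨by simp⟩
    exact Submodule.finrank_orthogonal_span_singleton hu
  have hS' : S = Subtype.val '' (Subtype.val ⁻¹' S : Set W) := by
    ext x
    constructor
    · intro hx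
      exact ⟨⟨x, Submodule.mem_orthogonal_singleton_iff_inner_left.mpr (h x hx)⟩, hx, rfl⟩
    · rintro ⟨y, hy, rfl⟩; exact hy
  have hiso : Isometry (Subtype.val : W → E3) := isometry_subtype_coe
  rw [hS', hiso.euclideanHausdorffMeasure_image, ← hW]
  have hb : Bornology.IsBounded (Subtype.val ⁻¹' S : Set W) :=
    hiso.antilipschitz.isBounded_preimage hS
  exact hb.measure_lt_top.ne

/-- A compact subset of a plane is inside a bounded relatively open one of nearly the same area. -/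
theorem exists_open_superset {u : E3} (hu : u ≠ 0) {S : Set E3} (hS : IsCompact S)
    (h : ∀ x ∈ S, inner ℝ x u = 0) {η : ℝ} (hη : 0 < η) :
    ∃ B : Set E3, S ⊆ B ∧ Bornology.IsBounded B ∧
      (∃ O : Set E3, IsOpen O ∧ B = O ∩ {x | inner ℝ x u = 0}) ∧
      (μHE[2] B).toReal ≤ (μHE[2] S).toReal + η := by
  set H : Set E3 := {x | inner ℝ x u = 0} with hH
  have hHm : MeasurableSet H := (isClosed_eq (by fun_prop) continuous_const).measurableSet
  let ν : Measure E3 := (μHE[2] : Measure E3).restrict H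
  have hfin : ∀ r : ℝ, ν (Metric.thickening r S) ≠ ∞ := by
    intro r
    rw [Measure.restrict_apply' hHm]
    exact area_ne_top hu (hS.isBounded.thickening.subset Set.inter_subset_left) (fun x hx => hx.2)
  have ht := tendsto_measure_thickening_of_isClosed (μ := ν) ⟨1, one_pos, hfin 1⟩ hS.isClosed
  have hνS : ν S = μHE[2] S := by
    rw [Measure.restrict_apply' hHm, Set.inter_eq_left.mpr (show S ⊆ H from h)]
  have hSfin : μHE[2] S ≠ ∞ := area_ne_top hu hS.isBounded h
  have ht2 := (ENNReal.tendsto_toReal (hνS ▸ hSfin)).comp ht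
  have hev := ht2.eventually (gt_mem_nhds (show (ν S).toReal < (ν S).toReal + η by linarith))
  obtain ⟨r, hr, hr0⟩ := (hev.and self_mem_nhdsWithin).exists
  refine ⟨Metric.thickening r S ∩ H, ?_, hS.isBounded.thickening.subset Set.inter_subset_left,
    ⟨_, Metric.isOpen_thickening, rfl⟩, ?_⟩
  · intro x hx
    exact ⟨Metric.self_subset_thickening hr0 S hx, h x hx⟩
  · rw [← hνS, ← Measure.restrict_apply' hHm]
    exact hr.le

end Crest.Agent.R211
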