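import Crest.Agent.R211.Tetra

set_option autoImplicit false
open MeasureTheory
open scoped ENNReal

namespace Crest.Agent.R211

theorem proj_fun_eq {v : E3} (hv : ‖v‖ = 1) : (fun y : E3 => y - inner ℝ y v • v) = proj v :=
  funext fun y => (proj_unit hv y).symm

theorem ne_zero_of_unit {v : E3} (hv : ‖v‖ = 1) : v ≠ 0 := by
  rintro rfl; simp at hv

theorem tri_proj_subset {K : Set E3} (hK : Convex ℝ K) (v : E3) {A B C : E3} (hA : A ∈ K)
    (hB : B ∈ K) (hC : C ∈ K) :
    convexHull ℝ {proj v A, proj v B, proj v C} ⊆ proj v '' K := by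
  intro x hx
  obtain ⟨s, t, hs, ht, hst, rfl⟩ := (mem_tri_iff _ _ _ _).mp hx
  refine ⟨A + s • (B - A) + t • (C - A), ?_, by simp only [proj_add, proj_smul, proj_sub]⟩
  have hsub : convexHull ℝ ({A, B, C} : Set E3) ⊆ K := by
    refine convexHull_min ?_ hK
    intro y hy
    simp only [Set.mem_insert_iff, Set.mem_singleton_iff] at hy
    rcases hy with rfl | rfl | rfl <;> assumption
  exact hsub ((mem_tri_iff _ _ _ _).mpr ⟨s, t, hs, ht, hst, rfl⟩)

theorem area_tri_proj {v : E3} (hv : ‖v‖ = 1) (A B C : E3) :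
    μHE[2] (convexHull ℝ {proj v A, proj v B, proj v C})
      = ENNReal.ofReal (|trip (B - A) (C - A) v| / 2) := by
  rw [area_tri, ← proj_sub, ← proj_sub, par_proj (ne_zero_of_unit hv), hv, div_one]

theorem area_ge_tri {K : Set E3} (hK : Convex ℝ K) {v : E3} (hv : ‖v‖ = 1) {A B C : E3}
    (hA : A ∈ K) (hB : B ∈ K) (hC : C ∈ K) :
    ENNReal.ofReal (|trip (B - A) (C - A) v| / 2) ≤ μHE[2] (proj v '' K) := by
  rw [← area_tri_proj hv]
  exact measure_mono (tri_proj_subset hK v hA hB hC)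

theorem trip_tri (v A B C : E3) (s t : ℝ) :
    trip (B - A) (proj v A + s • (proj v B - proj v A) + t • (proj v C - proj v A) - proj v A) v
      = t * trip (B - A) (C - A) v := by
  simp only [trip, proj, PiLp.add_apply, PiLp.sub_apply, PiLp.smul_apply, smul_eq_mul]
  ring

theorem isCompact_tri (p q r : E3) : IsCompact (convexHull ℝ ({p, q, r} : Set E3)) :=
  (Set.toFinite _).isCompact_convexHull ℝ

theorem area_ge_quad_aux {K : Set E3} (hK : Convex ℝ K) {v : E3} (hv : ‖v‖ = 1) {A B C D : E3}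
    (hA : A ∈ K) (hB : B ∈ K) (hC : C ∈ K) (hD : D ∈ K) (h1 : 0 < trip (B - A) (C - A) v)
    (h2 : trip (B - A) (D - A) v < 0) :
    ENNReal.ofReal ((trip (B - A) (C - A) v - trip (B - A) (D - A) v) / 2)
      ≤ μHE[2] (proj v '' K) := by
  have hdisj : AEDisjoint μHE[2] (convexHull ℝ {proj v A, proj v B, proj v C})
      (convexHull ℝ {proj v A, proj v B, proj v D}) := by
    have hsub : convexHull ℝ {proj v A, proj v B, proj v C} ∩
        convexHull ℝ {proj v A, proj v B, proj v D} ⊆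
        convexHull ℝ {proj v A, proj v B, proj v B} := by
      rintro x ⟨hx1, hx2⟩
      obtain ⟨s, t, hs, ht, hst, e1⟩ := (mem_tri_iff _ _ _ _).mp hx1
      obtain ⟨s', t', hs', ht', hst', e2⟩ := (mem_tri_iff _ _ _ _).mp hx2
      have k1 := trip_tri v A B C s t
      have k2 := trip_tri v A B D s' t'
      rw [← e1] at k1
      rw [← e2] at k2
      have ht0 : t = 0 := by
        have k3 : t' * trip (B - A) (D - A) v ≤ 0 := mul_nonpos_of_nonneg_of_nonpos ht' h2.le
        have k4 : t * trip (B - A) (C - A) v ≤ 0 := by linarith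
        exact le_antisymm (by by_contra hh; push Not at hh; nlinarith) ht
      exact (mem_tri_iff _ _ _ _).mpr ⟨s, 0, hs, le_rfl, by linarith, by rw [e1, ht0]; simp⟩
    refine measure_mono_null hsub ?_
    rw [area_tri, par_self]; simp
  have hu := measure_union₀ (μ := μHE[2]) (s := convexHull ℝ {proj v A, proj v B, proj v C})
    (isCompact_tri (proj v A) (proj v B) (proj v D)).isClosed.measurableSet.nullMeasurableSet hdisj
  rw [area_tri_proj hv, area_tri_proj hv, ← ENNReal.ofReal_add (by positivity) (by positivity),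
    abs_of_pos h1, abs_of_neg h2] at hu
  have e : (trip (B - A) (C - A) v - trip (B - A) (D - A) v) / 2 =
    trip (B - A) (C - A) v / 2 + -trip (B - A) (D - A) v / 2 := by ring
  rw [e, ← hu]
  exact measure_mono (Set.union_subset (tri_proj_subset hK v hA hB hC)
    (tri_proj_subset hK v hA hB hD))

theorem area_ge_quad {K : Set E3} (hK : Convex ℝ K) {v : E3} (hv : ‖v‖ = 1) {A B C D : E3}
    (hA : A ∈ K) (hB : B ∈ K) (hC : C ∈ K) (hD : D ∈ K) :
    ENNReal.ofReal (|trip (B - A) (C - A) v - trip (B - A) (D - A) v| / 2)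
      ≤ μHE[2] (proj v '' K) := by
  have t1 := area_ge_tri hK hv hA hB hC
  have t2 := area_ge_tri hK hv hA hB hD
  by_cases c1 : 0 < trip (B - A) (C - A) v ∧ trip (B - A) (D - A) v < 0
  · rw [abs_of_pos (by linarith [c1.1, c1.2])]
    exact area_ge_quad_aux hK hv hA hB hC hD c1.1 c1.2
  by_cases c2 : 0 < trip (B - A) (D - A) v ∧ trip (B - A) (C - A) v < 0
  · rw [abs_sub_comm, abs_of_pos (by linarith [c2.1, c2.2])]
    exact area_ge_quad_aux hK hv hA hB hD hC c2.1 c2.2
  have : |trip (B - A) (C - A) v - trip (B - A) (D - A) v| ≤ |trip (B - A) (C - A) v| ∨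
      |trip (B - A) (C - A) v - trip (B - A) (D - A) v| ≤ |trip (B - A) (D - A) v| := by
    generalize trip (B - A) (C - A) v = a at c1 c2 ⊢
    generalize trip (B - A) (D - A) v = b at c1 c2 ⊢
    push Not at c1 c2
    rcases abs_cases a with ha | ha <;> rcases abs_cases b with hb | hb <;>
      rcases abs_cases (a - b) with hc | hc <;> rcases lt_trichotomy a 0 with h | h | h <;>
      rcases lt_trichotomy b 0 with h' | h' | h' <;>
      first
        | (left; linarith)
        | (right; linarith)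
        | (have := c1 h; linarith)
        | (have := c2 h'; linarith)
  rcases this with h | h
  · exact (ENNReal.ofReal_le_ofReal (by linarith)).trans t1
  · exact (ENNReal.ofReal_le_ofReal (by linarith)).trans t2

theorem frame_alg {a b c M : ℝ} (h1 : a ^ 2 + b ^ 2 + c ^ 2 = 1) (ha : 2 * |a| ≤ M)
    (hb : 2 * |b| ≤ M) (hc : 2 * |c| ≤ M) (hs : |a| + |b| + |c| ≤ M) : Real.sqrt 2 ≤ M := by
  have hM : 0 ≤ M := le_trans (by positivity) ha
  apply Real.sqrt_le_iff.mpr ⟨hM, ?_⟩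
  rw [← sq_abs a, ← sq_abs b, ← sq_abs c] at h1
  have k1 := mul_le_mul_of_nonneg_left ha (abs_nonneg a)
  have k2 := mul_le_mul_of_nonneg_left hb (abs_nonneg b)
  have k3 := mul_le_mul_of_nonneg_left hc (abs_nonneg c)
  have k4 := mul_le_mul_of_nonneg_left hs hM
  nlinarith

theorem isCompact_K0 : IsCompact K0 := (Set.toFinite _).isCompact_convexHull ℝ

theorem continuous_proj (v : E3) : Continuous (proj v) := by
  unfold proj; fun_prop

theorem area_proj_ne_top {K : Set E3} (hK : IsCompact K) {v : E3} (hv : v ≠ 0) :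
    μHE[2] (proj v '' K) ≠ ∞ := by
  refine area_ne_top hv (hK.image (continuous_proj v)).isBounded ?_
  rintro x ⟨y, _, rfl⟩
  exact inner_proj hv y

theorem sqrt_two_le_area_proj {v : E3} (hv : ‖v‖ = 1) :
    Real.sqrt 2 ≤ (μHE[2] (proj v '' K0)).toReal := by
  have hfin := area_proj_ne_top isCompact_K0 (ne_zero_of_unit hv)
  have hK : Convex ℝ K0 := convex_convexHull _ _
  set A : E3 := !₂[1, 0, 0] with hA'
  set B : E3 := !₂[-1, 0, 0] with hB'
  set C : E3 := !₂[0, 1, Real.sqrt 2] with hC'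
  set D : E3 := !₂[0, -1, Real.sqrt 2] with hD'
  have hA : A ∈ K0 := subset_convexHull _ _ (by simp [hA'])
  have hB : B ∈ K0 := subset_convexHull _ _ (by simp [hB'])
  have hC : C ∈ K0 := subset_convexHull _ _ (by simp [hC'])
  have hD : D ∈ K0 := subset_convexHull _ _ (by simp [hD'])
  have q1 := (ENNReal.ofReal_le_iff_le_toReal hfin).mp (area_ge_quad hK hv hA hB hC hD)
  have q2 := (ENNReal.ofReal_le_iff_le_toReal hfin).mp (area_ge_quad hK hv hA hC hB hD)
  have q3 := (ENNReal.ofReal_le_iff_le_toReal hfin).mp (area_ge_quad hK hv hA hD hB hC)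
  have t1 := (ENNReal.ofReal_le_iff_le_toReal hfin).mp (area_ge_tri hK hv hA hB hC)
  have t2 := (ENNReal.ofReal_le_iff_le_toReal hfin).mp (area_ge_tri hK hv hA hB hD)
  have t3 := (ENNReal.ofReal_le_iff_le_toReal hfin).mp (area_ge_tri hK hv hA hC hD)
  have t4 := (ENNReal.ofReal_le_iff_le_toReal hfin).mp (area_ge_tri hK hv hB hC hD)
  generalize (μHE[2] (proj v '' K0)).toReal = M at *
  have hn := normsq3 v
  rw [hv] at hn
  obtain ⟨s, hs⟩ : ∃ s, s = Real.sqrt 2 := ⟨_, rfl⟩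
  have hs2 : s ^ 2 = 2 := by rw [hs]; exact Real.sq_sqrt (by norm_num)
  obtain ⟨a, ha⟩ : ∃ a, a = s * (v 0 + v 1) / 2 := ⟨_, rfl⟩
  obtain ⟨b, hb⟩ : ∃ b, b = s * (v 0 - v 1) / 2 := ⟨_, rfl⟩
  obtain ⟨c, hc⟩ : ∃ c, c = v 2 := ⟨_, rfl⟩
  have e1 : trip (B - A) (C - A) v = 2 * (a - b - c) := by
    simp [trip, hA', hB', hC', ha, hb, hc, hs]; ring
  have e2 : trip (B - A) (D - A) v = 2 * (a - b + c) := by
    simp [trip, hA', hB', hD', ha, hb, hc, hs]; ring
  have e3 : trip (C - A) (D - A) v = 2 * (a + b + c) := by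
    simp [trip, hA', hC', hD', ha, hb, hc, hs]; ring
  have e4 : trip (C - B) (D - B) v = 2 * (a + b - c) := by
    simp [trip, hB', hC', hD', ha, hb, hc, hs]; ring
  have e5 : trip (C - A) (B - A) v = -(2 * (a - b - c)) := by
    rw [← e1]; simp [trip]; ring
  have e6 : trip (D - A) (B - A) v = -(2 * (a - b + c)) := by
    rw [← e2]; simp [trip]; ring
  have e7 : trip (D - A) (C - A) v = -(2 * (a + b + c)) := by
    rw [← e3]; simp [trip]; ring
  rw [e1, e2] at q1
  rw [e5, e3] at q2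
  rw [e6, e7] at q3
  rw [e1] at t1
  rw [e2] at t2
  rw [e3] at t3
  rw [e4] at t4
  rw [div_le_iff₀ (by norm_num), abs_le] at q1 q2 q3 t1 t2 t3 t4
  refine frame_alg (a := a) (b := b) (c := c) ?_ ?_ ?_ ?_ ?_
  · have : a ^ 2 + b ^ 2 + c ^ 2 = s ^ 2 * (v 0 ^ 2 + v 1 ^ 2) / 2 + v 2 ^ 2 := by
      rw [ha, hb, hc]; ring
    rw [this, hs2]; linarith
  · rcases abs_cases a with h | h <;> linarith [h.1, q2.1, q2.2]
  · rcases abs_cases b with h | h <;> linarith [h.1, q3.1, q3.2]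
  · rcases abs_cases c with h | h <;> linarith [h.1, q1.1, q1.2]
  · rcases abs_cases a with h | h <;> rcases abs_cases b with h' | h' <;>
      rcases abs_cases c with h'' | h'' <;>
      linarith [h.1, h'.1, h''.1, t1.1, t1.2, t2.1, t2.2, t3.1, t3.2, t4.1, t4.2]

theorem area_proj_e0 : μHE[2] (proj !₂[1, 0, 0] '' K0) = ENNReal.ofReal (Real.sqrt 2) := by
  have hv : ‖(!₂[1, 0, 0] : E3)‖ = 1 := by
    rw [← Real.sqrt_sq (norm_nonneg _), normsq3]; simp
  have hfin := area_proj_ne_top isCompact_K0 (ne_zero_of_unit hv)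
  refine le_antisymm ?_ ((ENNReal.ofReal_le_iff_le_toReal hfin).mpr (sqrt_two_le_area_proj hv))
  have hs : 0 < Real.sqrt 2 := by positivity
  have hsub : proj !₂[1, 0, 0] '' K0 ⊆ convexHull ℝ {proj !₂[1, 0, 0] !₂[0, 0, 0],
      proj !₂[1, 0, 0] !₂[0, 1, Real.sqrt 2], proj !₂[1, 0, 0] !₂[0, -1, Real.sqrt 2]} := by
    rintro _ ⟨x, hx, rfl⟩
    obtain ⟨h1, h2⟩ := K0_ineq hx
    have h3 := abs_nonneg (x 0)
    rw [abs_le] at h1
    refine (mem_tri_iff _ _ _ _).mpr ⟨(x 2 / Real.sqrt 2 + x 1) / 2, (x 2 / Real.sqrt 2 - x 1) / 2,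
      by linarith [h1.1], by linarith [h1.2], by linarith, ?_⟩
    simp only [proj_unit hv, inner3]
    ext i
    fin_cases i
    · simp
    · simp; ring
    · simp; field_simp; ring
  refine (measure_mono hsub).trans (le_of_eq ?_)
  rw [area_tri_proj hv]
  congr 1
  have : trip (!₂[0, 1, Real.sqrt 2] - !₂[0, 0, 0]) (!₂[0, -1, Real.sqrt 2] - !₂[0, 0, 0])
      !₂[1, 0, 0] = 2 * Real.sqrt 2 := by
    simp [trip]; ring
  rw [this, abs_of_pos (by positivity)]; ring

/-- Padding a triangular cover with a junk triangle and degenerate triangles. -/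
theorem TriCov.pad {K : Set E3} {ι : Type} [Fintype ι] {u p q r : ι → E3} (h : TriCov K u p q r)
    {A : ℝ} (hA : ∑ i, par (q i - p i) (r i - p i) / 2 ≤ A) {m : ℕ} (hm : Fintype.card ι + 1 ≤ m) :
    ∃ u p q r : Fin m → E3, TriCov K u p q r ∧ ∑ i, par (q i - p i) (r i - p i) / 2 = A := by
  obtain ⟨h1, h2, h3⟩ := h
  obtain ⟨k, rfl⟩ := Nat.exists_eq_add_of_le hm
  let e : Fin (Fintype.card ι + 1 + k) ≃ (ι ⊕ Unit) ⊕ Fin k :=
    (Fintype.equivFinOfCardEq (by simp)).symm
  obtain ⟨θ, hθ⟩ : ∃ θ, θ = A - ∑ i, par (q i - p i) (r i - p i) / 2 := ⟨_, rfl⟩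
  have hθ0 : 0 ≤ θ := by linarith
  have hv : ‖(!₂[1, 0, 0] : E3)‖ = 1 := by
    rw [← Real.sqrt_sq (norm_nonneg _), normsq3]; simp
  let u' : (ι ⊕ Unit) ⊕ Fin k → E3 := Sum.elim (Sum.elim u fun _ => !₂[1, 0, 0]) fun _ => !₂[1, 0, 0]
  let p' : (ι ⊕ Unit) ⊕ Fin k → E3 := Sum.elim (Sum.elim p fun _ => 0) fun _ => 0
  let q' : (ι ⊕ Unit) ⊕ Fin k → E3 := Sum.elim (Sum.elim q fun _ => !₂[0, 2 * θ, 0]) fun _ => 0
  let r' : (ι ⊕ Unit) ⊕ Fin k → E3 := Sum.elim (Sum.elim r fun _ => !₂[0, 0, 1]) fun _ => 0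
  refine ⟨u' ∘ e, p' ∘ e, q' ∘ e, r' ∘ e, ⟨?_, ?_, ?_⟩, ?_⟩
  · intro i
    simp only [Function.comp]
    rcases e i with ((j | j) | j)
    · exact h1 j
    · exact hv
    · exact hv
  · intro i
    simp only [Function.comp]
    rcases e i with ((j | j) | j)
    · exact h2 j
    · simp [u', p', q', r', inner3]
    · simp [u', p', q', r']
  · intro x hx
    obtain ⟨j, hj⟩ := Set.mem_iUnion.mp (h3 hx)
    refine Set.mem_iUnion.mpr ⟨e.symm (Sum.inl (Sum.inl j)), ?_⟩
    simpa [u', p', q', r'] using hj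
  · simp only [Function.comp]
    rw [Equiv.sum_comp e (fun i => par (q' i - p' i) (r' i - p' i) / 2)]
    have hj : par (!₂[0, 2 * θ, 0] : E3) !₂[0, 0, 1] = 2 * θ := by
      rw [par, normsq3, normsq3, inner3]
      simp [hθ0]
    simp [Fintype.sum_sum_type, p', q', r', par_self, hj]
    linarith

end Crest.Agent.R211
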