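import Crest.Agent.R211.Sim

set_option autoImplicit false
open MeasureTheory
open scoped ENNReal

namespace Crest.Agent.R211

theorem lattice_cover {a b : ℝ} (h0 : 0 ≤ a * b) (h1 : a * b < 1) (ξ ζ : ℝ) :
    ∃ m n : ℤ, ∃ x ∈ Set.Icc (0 : ℝ) 1, ∃ y ∈ Set.Icc (0 : ℝ) 1,
      ξ = m + b * n + x ∧ ζ = n + a * m + y := by
  let G : ℤ → ℝ := fun n => ζ - n - a * ⌊ξ - b * n⌋
  have hstep : ∀ n : ℤ, G n - 1 ≤ G (n + 1) := by
    intro n
    have : 0 ≤ a * ((⌊ξ - b * n⌋ : ℝ) - ⌊ξ - b * ((n + 1 : ℤ) : ℝ)⌋) := by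
      rcases mul_nonneg_iff.mp h0 with ⟨ha, hb⟩ | ⟨ha, hb⟩
      · refine mul_nonneg ha (sub_nonneg.mpr (Int.cast_le.mpr (Int.floor_le_floor ?_)))
        push_cast; linarith
      · refine mul_nonneg_of_nonpos_of_nonpos ha
          (sub_nonpos.mpr (Int.cast_le.mpr (Int.floor_le_floor ?_)))
        push_cast; linarith
    simp only [G]
    push_cast at this ⊢
    linarith
  have hG : ∀ n : ℤ, |G n - (ζ - a * ξ - (1 - a * b) * n)| ≤ |a| := by
    intro n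
    have e : G n - (ζ - a * ξ - (1 - a * b) * n) = a * Int.fract (ξ - b * n) := by
      simp only [G, Int.fract]; ring
    rw [e, abs_mul, abs_of_nonneg (Int.fract_nonneg (ξ - b * n))]
    exact mul_le_of_le_one_right (abs_nonneg _) (Int.fract_lt_one _).le
  obtain ⟨N, hN⟩ := exists_nat_gt ((|ζ - a * ξ| + |a| + 1) / (1 - a * b))
  have hpos : 0 < 1 - a * b := by linarith
  have hN0 : (0 : ℝ) < N := lt_of_le_of_lt (by positivity) hN
  rw [div_lt_iff₀ hpos] at hN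
  obtain ⟨j, _, f1, f2⟩ := exists_sign_change (fun j : ℕ => G (j - N) - 1) (2 * N)
    (by have : 0 < N := by exact_mod_cast hN0
        omega)
    (by
      have k1 := (abs_le.mp (hG (((0 : ℕ) : ℤ) - N))).1
      have k2 := neg_abs_le (ζ - a * ξ)
      push_cast at k1 ⊢
      linarith)
    (by
      have k1 := (abs_le.mp (hG (((2 * N : ℕ) : ℤ) - N))).2
      have k2 := le_abs_self (ζ - a * ξ)
      push_cast at k1 ⊢
      linarith)
  have e : (((j + 1 : ℕ) : ℤ) - N) = (j - N) + 1 := by push_cast; ring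
  simp only [e] at f2
  have f3 := hstep (j - N)
  refine ⟨⌊ξ - b * ((j - N + 1 : ℤ) : ℝ)⌋, j - N + 1, Int.fract (ξ - b * ((j - N + 1 : ℤ) : ℝ)),
    ⟨Int.fract_nonneg _, (Int.fract_lt_one _).le⟩, G (j - N + 1), ⟨by linarith, by linarith⟩, ?_, ?_⟩
  · simp only [Int.fract]; ring
  · simp only [G]; ring

theorem lattice_count {R : ℝ} (hR : 0 ≤ R) :
    ∃ I : Finset (ℤ × ℤ), (∀ z : ℤ × ℤ, z ∈ I ↔ (z.1 : ℝ) ^ 2 + (z.2 : ℝ) ^ 2 ≤ R ^ 2) ∧
      (I.card : ℝ) ≤ Real.pi * (R + 2) ^ 2 := by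
  classical
  let I : Finset (ℤ × ℤ) := ((Finset.Icc (-⌈R⌉) ⌈R⌉) ×ˢ (Finset.Icc (-⌈R⌉) ⌈R⌉)).filter
    fun z => (z.1 : ℝ) ^ 2 + (z.2 : ℝ) ^ 2 ≤ R ^ 2
  have hb : ∀ m : ℤ, (m : ℝ) ^ 2 ≤ R ^ 2 → m ∈ Finset.Icc (-⌈R⌉) ⌈R⌉ := by
    intro m hm
    have := abs_le.mp (abs_le_of_sq_le_sq' hm hR |> abs_le.mpr)
    have h2 := Int.le_ceil R
    rw [Finset.mem_Icc]
    constructor
    · have : ((-⌈R⌉ : ℤ) : ℝ) ≤ m := by push_cast; linarith [this.1]
      exact_mod_cast this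
    · have : (m : ℝ) ≤ ((⌈R⌉ : ℤ) : ℝ) := by linarith [this.2]
      exact_mod_cast this
  have hI : ∀ z : ℤ × ℤ, z ∈ I ↔ (z.1 : ℝ) ^ 2 + (z.2 : ℝ) ^ 2 ≤ R ^ 2 := by
    intro z
    simp only [I, Finset.mem_filter, Finset.mem_product]
    refine ⟨fun h => h.2, fun h => ⟨⟨hb _ ?_, hb _ ?_⟩, h⟩⟩
    · linarith [sq_nonneg (z.2 : ℝ)]
    · linarith [sq_nonneg (z.1 : ℝ)]
  refine ⟨I, hI, ?_⟩
  let Q : ℤ × ℤ → Set E2 := fun z =>
    e2 ⁻¹' (Set.Ico (z.1 : ℝ) (z.1 + 1) ×ˢ Set.Ico (z.2 : ℝ) (z.2 + 1))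
  have hQ : ∀ z, volume (Q z) = 1 := by
    intro z
    simp only [Q]
    rw [vol_e2_preimage, Measure.volume_eq_prod, Measure.prod_prod]
    simp
  have hfl : ∀ (z : ℤ × ℤ) (p : E2), p ∈ Q z → z = (⌊p 0⌋, ⌊p 1⌋) := by
    rintro ⟨m, n⟩ p ⟨h1, h2⟩
    rw [e2_apply] at h1 h2
    exact Prod.ext (Int.floor_eq_iff.mpr h1).symm (Int.floor_eq_iff.mpr h2).symm
  have hu := measure_biUnion_finset (μ := volume) (s := I) (f := Q)
    (fun z _ z' _ hzz => Set.disjoint_left.mpr fun p hp hp' =>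
      hzz ((hfl z p hp).trans (hfl z' p hp').symm))
    (fun z _ => e2.measurable (measurableSet_Ico.prod measurableSet_Ico))
  have hsub : (⋃ z ∈ I, Q z) ⊆ Metric.closedBall (0 : E2) (R + 2) := by
    intro p hp
    obtain ⟨z, hz, ⟨h1, h2⟩, h3, h4⟩ := Set.mem_iUnion₂.mp hp
    rw [e2_apply] at h1 h2 h3 h4
    simp only at h1 h2 h3 h4
    rw [hI] at hz
    rw [mem_closedBall_zero_iff]
    have hc : ‖(!₂[(z.1 : ℝ), (z.2 : ℝ)] : E2)‖ ≤ R := by
      refine (abs_le_of_sq_le_sq' ?_ hR).2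
      rw [normsq2]; simpa using hz
    have hd : ‖p - !₂[(z.1 : ℝ), (z.2 : ℝ)]‖ ≤ 2 := by
      refine (abs_le_of_sq_le_sq' ?_ (by norm_num)).2
      rw [normsq2]; simp; nlinarith
    calc ‖p‖ = ‖!₂[(z.1 : ℝ), (z.2 : ℝ)] + (p - !₂[(z.1 : ℝ), (z.2 : ℝ)])‖ := by simp
      _ ≤ _ := (norm_add_le _ _).trans (add_le_add hc hd)
  have := measure_mono (μ := volume) hsub
  rw [hu, EuclideanSpace.volume_closedBall_fin_two] at this
  simp only [hQ, Finset.sum_const, nsmul_eq_mul, mul_one] at this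
  rw [← ENNReal.ofReal_pow (by linarith), ← ENNReal.ofReal_mul (by positivity),
    ← ENNReal.ofReal_natCast, ENNReal.ofReal_le_ofReal_iff (by positivity)] at this
  linarith

theorem exists_frame (A : E2 →L[ℝ] E2) (htr : LinearMap.trace ℝ _ A.toLinearMap = 0) :
    ∃ (u v : E2) (β γ : ℝ), ‖u‖ = 1 ∧ ‖v‖ = 1 ∧ inner ℝ u v = 0 ∧
      (∀ w : E2, w = inner ℝ w u • u + inner ℝ w v • v) ∧
      (∀ w : E2, ‖w‖ ^ 2 = inner ℝ w u ^ 2 + inner ℝ w v ^ 2) ∧
      A u = β • v ∧ A v = γ • u ∧ LinearMap.det A.toLinearMap = -(β * γ) := by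
  let b := (EuclideanSpace.basisFun (Fin 2) ℝ).toBasis
  rw [LinearMap.trace_eq_matrix_trace ℝ b, Matrix.trace_fin_two] at htr
  rw [← LinearMap.det_toMatrix b, Matrix.det_fin_two]
  simp only [LinearMap.toMatrix_apply, b, OrthonormalBasis.coe_toBasis,
    OrthonormalBasis.coe_toBasis_repr_apply, EuclideanSpace.basisFun_repr,
    ContinuousLinearMap.coe_coe] at htr ⊢
  obtain ⟨a0, ha0⟩ : ∃ a0, a0 = A (EuclideanSpace.basisFun (Fin 2) ℝ 0) := ⟨_, rfl⟩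
  obtain ⟨a1, ha1⟩ : ∃ a1, a1 = A (EuclideanSpace.basisFun (Fin 2) ℝ 1) := ⟨_, rfl⟩
  rw [← ha0, ← ha1] at htr ⊢
  have hA : ∀ x y : ℝ, A !₂[x, y] = x • a0 + y • a1 := by
    intro x y
    rw [ha0, ha1, ← A.map_smul, ← A.map_smul, ← A.map_add]
    congr 1
    ext i; fin_cases i <;> simp
  obtain ⟨θ, _, hθ⟩ : ∃ θ ∈ Set.uIcc (0 : ℝ) (Real.pi / 2),
      a0 0 * (Real.cos θ ^ 2 - Real.sin θ ^ 2) + (a0 1 + a1 0) * (Real.cos θ * Real.sin θ) = 0 := by
    have := intermediate_value_uIcc (a := 0) (b := Real.pi / 2) (f := fun θ : ℝ =>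
      a0 0 * (Real.cos θ ^ 2 - Real.sin θ ^ 2) + (a0 1 + a1 0) * (Real.cos θ * Real.sin θ))
      (by fun_prop)
    apply this
    simp only [Real.cos_zero, Real.sin_zero, Real.cos_pi_div_two, Real.sin_pi_div_two]
    rcases le_total 0 (a0 0) with h | h
    · exact Set.mem_uIcc.mpr (Or.inr ⟨by linarith, by linarith⟩)
    · exact Set.mem_uIcc.mpr (Or.inl ⟨by linarith, by linarith⟩)
  have hcs := Real.cos_sq_add_sin_sq θ
  generalize Real.cos θ = c at hθ hcs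
  generalize Real.sin θ = s at hθ hcs
  have h11 : a1 1 = -a0 0 := by linarith
  refine ⟨!₂[c, s], !₂[-s, c], -s * (c * a0 0 + s * a1 0) + c * (c * a0 1 + s * a1 1),
    c * (-s * a0 0 + c * a1 0) + s * (-s * a0 1 + c * a1 1), ?_, ?_, ?_, ?_, ?_, ?_, ?_, ?_⟩
  · rw [← Real.sqrt_sq (norm_nonneg _), normsq2]; simp [hcs]
  · rw [← Real.sqrt_sq (norm_nonneg _), normsq2]; simp [add_comm, hcs]
  · rw [inner2]; simp; ring
  · intro w
    simp only [inner2]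
    ext i; fin_cases i
    · simp; linear_combination (-w 0) * hcs
    · simp; linear_combination (-w 1) * hcs
  · intro w
    simp only [inner2, normsq2]
    simp; linear_combination (-(w 0 ^ 2 + w 1 ^ 2)) * hcs
  · rw [hA]
    ext i; fin_cases i
    · simp [h11]; linear_combination c * hθ - (c * a0 0 + s * a1 0) * hcs
    · simp [h11]; linear_combination s * hθ - (c * a0 1 - s * a0 0) * hcs
  · rw [hA]
    ext i; fin_cases i
    · simp [h11]; linear_combination s * hθ - (-s * a0 0 + c * a1 0) * hcs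
    · simp [h11]; linear_combination (-c) * hθ - (-s * a0 1 - c * a0 0) * hcs
  · rw [h11]
    linear_combination (-(a0 0 * (c ^ 2 - s ^ 2) + (a0 1 + a1 0) * (c * s))) * hθ
      + (a0 0 ^ 2 + a0 1 * a1 0) * (c ^ 2 + s ^ 2 + 1) * hcs

/-- the weight of a velocity -/
noncomputable def JJ (h : ℝ) (g : E2) : ℝ := 1 / Real.sqrt (1 + (g 0) ^ 2 + h ^ 2 * (g 1) ^ 2)

theorem JJ_pos (h : ℝ) (g : E2) : 0 < JJ h g := by unfold JJ; positivity

theorem JJ_le_one (h : ℝ) (g : E2) : JJ h g ≤ 1 := by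
  unfold JJ
  rw [div_le_one (by positivity)]
  refine Real.one_le_sqrt.mpr ?_
  have : 0 ≤ h ^ 2 * (g 1) ^ 2 := by positivity
  linarith [sq_nonneg (g 0)]

theorem continuous_JJ (h : ℝ) : Continuous (JJ h) := by
  unfold JJ
  refine continuous_const.div (by fun_prop) fun g => ?_
  positivity

/-- squares with velocities covering the ruled set over `S` -/
def SqCov (L : ℝ) (V : E2 → E2) (S : Set E2) {ι : Type} (c a b g : ι → E2) : Prop :=
  (∀ i, a i ≠ 0 ∧ ‖b i‖ = ‖a i‖ ∧ inner ℝ (a i) (b i) = 0) ∧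
  ∀ q ∈ S, ∀ s : ℝ, |s| ≤ L → ∃ i, ∃ x ∈ Set.Icc (0 : ℝ) 1, ∃ y ∈ Set.Icc (0 : ℝ) 1,
    q + s • V q = c i + x • a i + y • b i + s • g i

theorem solve_bound {M N f1 f2 p q F K κ : ℝ} (h1 : M + p * N = f1) (h2 : N + q * M = f2)
    (hpq : p * q ≤ κ) (hκ : κ < 1) (hp : |p| ≤ K) (hq : |q| ≤ K) (hf1 : |f1| ≤ F)
    (hf2 : |f2| ≤ F) : |M| ≤ (1 + K) / (1 - κ) * F ∧ |N| ≤ (1 + K) / (1 - κ) * F := by
  have hF : 0 ≤ F := (abs_nonneg _).trans hf1
  have hK : 0 ≤ K := (abs_nonneg _).trans hp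
  have hpos : 0 < 1 - κ := by linarith
  have aux : ∀ M f1 f2 p : ℝ, ∀ D : ℝ, 1 - κ ≤ D → M * D = f1 - p * f2 → |p| ≤ K → |f1| ≤ F →
      |f2| ≤ F → |M| ≤ (1 + K) / (1 - κ) * F := by
    intro M f1 f2 p D hD e hp hf1 hf2
    rw [div_mul_eq_mul_div, le_div_iff₀ hpos]
    have k1 : |M| * D = |f1 - p * f2| := by rw [← e, abs_mul, abs_of_pos (by linarith : 0 < D)]
    have k2 : |f1 - p * f2| ≤ |f1| + |p| * |f2| := by rw [← abs_mul]; exact abs_sub _ _
    have k3 : |p| * |f2| ≤ K * F := mul_le_mul hp hf2 (abs_nonneg _) hK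
    have k4 : |M| * (1 - κ) ≤ |M| * D := mul_le_mul_of_nonneg_left hD (abs_nonneg _)
    linarith
  exact ⟨aux M f1 f2 p (1 - p * q) (by linarith) (by rw [← h1, ← h2]; ring) hp hf1 hf2,
    aux N f2 f1 q (1 - p * q) (by linarith) (by rw [← h1, ← h2]; ring) hq hf2 hf1⟩

theorem disc_bound {X Y M N r1 e : ℝ} (hr : 0 ≤ r1) (he : 0 ≤ e) (h : X ^ 2 + Y ^ 2 ≤ r1 ^ 2)
    (hM : |M| ≤ e) (hN : |N| ≤ e) : (X + M) ^ 2 + (Y + N) ^ 2 ≤ (r1 + 2 * e) ^ 2 := by
  have h1 : ‖(!₂[X, Y] : E2)‖ ≤ r1 := by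
    refine (abs_le_of_sq_le_sq' ?_ hr).2
    rw [normsq2]; simpa using h
  have h2 : ‖(!₂[M, N] : E2)‖ ≤ 2 * e := by
    refine (abs_le_of_sq_le_sq' ?_ (by linarith)).2
    rw [normsq2]
    have := sq_le_sq' (abs_le.mp hM).1 (abs_le.mp hM).2
    have := sq_le_sq' (abs_le.mp hN).1 (abs_le.mp hN).2
    simp; nlinarith
  have h3 := (norm_add_le _ _).trans (add_le_add h1 h2)
  have h4 := pow_le_pow_left₀ (norm_nonneg _) h3 2
  rw [normsq2] at h4
  simpa using h4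

theorem local_cover {V : E2 → E2} {p : E2} {A : E2 →L[ℝ] E2} (hV : HasFDerivAt V A p) {L : ℝ}
    (h : ℝ) (hL : 0 < L) (htr : LinearMap.trace ℝ _ A.toLinearMap = 0)
    (hd1 : -(L ^ 2)⁻¹ < LinearMap.det A.toLinearMap) (hd2 : LinearMap.det A.toLinearMap ≤ 0)
    {η : ℝ} (hη : 0 < η) (hη1 : η ≤ 1) :
    ∃ r₀ > 0, ∀ r, 0 < r → r < r₀ → ∃ (k : ℕ) (c a b g : Fin k → E2),
      SqCov L V (Metric.ball p ((1 + η) * r)) c a b g ∧
      ∑ i, ‖a i‖ ^ 2 * JJ h (g i) ≤ (1 + η) * JJ h (V p) * (Real.pi * ((1 + 4 * η) * r) ^ 2) := by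
  obtain ⟨u, v, β, γ, hu, hv, huv, hdec, hnorm, hAu, hAv, hdet⟩ := exists_frame A htr
  rw [hdet] at hd1 hd2
  have hβγ0 : 0 ≤ β * γ := by linarith
  have hκ : L ^ 2 * (β * γ) < 1 := by
    have h1 : β * γ < (L ^ 2)⁻¹ := by linarith
    have h2 := mul_lt_mul_of_pos_left h1 (show 0 < L ^ 2 by positivity)
    rwa [mul_inv_cancel₀ (by positivity)] at h2
  obtain ⟨κ, hκ'⟩ : ∃ κ, κ = L ^ 2 * (β * γ) := ⟨_, rfl⟩
  obtain ⟨K, hK⟩ : ∃ K, K = L * (|β| + |γ|) := ⟨_, rfl⟩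
  have hK0 : 0 ≤ K := by rw [hK]; positivity
  have hκ0 : 0 ≤ κ := by rw [hκ']; positivity
  rw [← hκ'] at hκ
  obtain ⟨C, hC⟩ : ∃ C, C = (1 + K) / (1 - κ) := ⟨_, rfl⟩
  have hC1 : 1 ≤ C := by rw [hC, le_div_iff₀ (by linarith)]; linarith
  have hC0 : 0 < C := by linarith
  obtain ⟨r₁, hr₁, hlin⟩ := Metric.eventually_nhds_iff.mp
    (hV.isLittleO.bound (show 0 < η / (4 * L * C) by positivity))
  have hJ := JJ_pos h (V p)
  obtain ⟨ρ₀, hρ₀, hJc⟩ := Metric.eventually_nhds_iff.mp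
    ((continuous_JJ h).continuousAt.eventually
      (gt_mem_nhds (show JJ h (V p) < (1 + η) * JJ h (V p) by nlinarith)))
  refine ⟨min (r₁ / 2) (ρ₀ / (4 * (|β| + |γ| + 1))), by positivity, fun r hr hr0 => ?_⟩
  have hr1 : r < r₁ / 2 := hr0.trans_le (min_le_left _ _)
  have hr2 : r * (4 * (|β| + |γ| + 1)) < ρ₀ := by
    have := hr0.trans_le (min_le_right _ _)
    rwa [lt_div_iff₀ (by positivity)] at this
  obtain ⟨ρ, hρ⟩ : ∃ ρ, ρ = η * r / (2 * C) := ⟨_, rfl⟩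
  have hρ0 : 0 < ρ := by rw [hρ]; positivity
  have hρ1 : 2 * ρ ≤ η * r := by
    rw [hρ, ← mul_div_assoc, div_le_iff₀ (by positivity)]
    have := mul_le_mul_of_nonneg_left hC1 (show 0 ≤ η * r by positivity)
    linarith
  obtain ⟨I, hI, hcard⟩ := lattice_count (R := (1 + 3 * η) * r / ρ) (by positivity)
  have hI' : ∀ z : ℤ × ℤ, z ∈ I ↔ (ρ * z.1) ^ 2 + (ρ * z.2) ^ 2 ≤ ((1 + 3 * η) * r) ^ 2 := by
    intro z
    rw [hI, div_pow, le_div_iff₀ (by positivity)]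
    constructor <;> intro hh <;> linarith
  let e := I.equivFin.symm
  let c : ℤ × ℤ → E2 := fun z => p + (ρ * z.1) • u + (ρ * z.2) • v
  let g : ℤ × ℤ → E2 := fun z => V p + (ρ * z.1 * β) • v + (ρ * z.2 * γ) • u
  have hu0 : u ≠ 0 := by rintro rfl; simp at hu
  refine ⟨I.card, fun i => c (e i), fun _ => ρ • u, fun _ => ρ • v, fun i => g (e i),
    ⟨fun i => ⟨smul_ne_zero hρ0.ne' hu0, by simp [norm_smul, hu, hv],
      by simp [real_inner_smul_left, real_inner_smul_right, huv]⟩, fun q hq s hs => ?_⟩, ?_⟩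
  · rw [Metric.mem_ball] at hq
    have hq2 : dist q p ≤ 2 * r := by nlinarith
    have herr := hlin (show dist q p < r₁ by linarith)
    rw [dist_eq_norm] at hq hq2
    obtain ⟨w, hw⟩ : ∃ w, w = V q - V p - A (q - p) := ⟨_, rfl⟩
    rw [← hw] at herr
    have hw1 : L * ‖w‖ ≤ ρ := by
      have k1 : η / (4 * L * C) * ‖q - p‖ ≤ η / (4 * L * C) * (2 * r) := by gcongr
      have k2 : L * (η / (4 * L * C) * (2 * r)) = ρ := by rw [hρ]; field_simp; ring
      have k3 := mul_le_mul_of_nonneg_left (herr.trans k1) hL.le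
      linarith
    have hsw : ∀ t : E2, ‖t‖ = 1 → |s * inner ℝ w t| ≤ ρ := by
      intro t ht
      have := abs_real_inner_le_norm w t
      rw [ht, mul_one] at this
      rw [abs_mul]
      exact (mul_le_mul hs this (abs_nonneg _) hL.le).trans hw1
    obtain ⟨X, hX⟩ : ∃ X, X = inner ℝ (q - p) u := ⟨_, rfl⟩
    obtain ⟨Y, hY⟩ : ∃ Y, Y = inner ℝ (q - p) v := ⟨_, rfl⟩
    obtain ⟨e1, he1⟩ : ∃ e1, e1 = inner ℝ w u := ⟨_, rfl⟩
    obtain ⟨e2, he2⟩ : ∃ e2, e2 = inner ℝ w v := ⟨_, rfl⟩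
    have hs1 := hsw u hu
    have hs2 := hsw v hv
    rw [← he1] at hs1
    rw [← he2] at hs2
    have hqp : q - p = X • u + Y • v := by rw [hX, hY]; exact hdec _
    have hwd : w = e1 • u + e2 • v := by rw [he1, he2]; exact hdec _
    have hXY : X ^ 2 + Y ^ 2 ≤ ((1 + η) * r) ^ 2 := by
      rw [hX, hY, ← hnorm]
      exact pow_le_pow_left₀ (norm_nonneg _) hq.le 2
    have hss : s ^ 2 ≤ L ^ 2 := sq_le_sq' (abs_le.mp hs).1 (abs_le.mp hs).2
    have hab : s * β * (s * γ) ≤ κ := by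
      have := mul_le_mul_of_nonneg_right hss hβγ0
      linarith
    obtain ⟨m, n, x, hx, y, hy, k1, k2⟩ := lattice_cover (a := s * β) (b := s * γ)
      (by have := mul_nonneg (sq_nonneg s) hβγ0; linarith) (by linarith)
      ((X + s * γ * Y + s * e1) / ρ) ((Y + s * β * X + s * e2) / ρ)
    rw [div_eq_iff hρ0.ne'] at k1 k2
    have hsβ : |s * β| ≤ K := by
      rw [abs_mul, hK]
      exact mul_le_mul hs (by linarith [abs_nonneg γ]) (abs_nonneg _) hL.le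
    have hsγ : |s * γ| ≤ K := by
      rw [abs_mul, hK]
      exact mul_le_mul hs (by linarith [abs_nonneg β]) (abs_nonneg _) hL.le
    have hf : ∀ t x : ℝ, |t| ≤ ρ → x ∈ Set.Icc (0 : ℝ) 1 → |t - ρ * x| ≤ 2 * ρ := by
      intro t x ht hx
      have k3 := mul_le_mul_of_nonneg_left hx.2 hρ0.le
      have k4 := mul_nonneg hρ0.le hx.1
      rw [abs_le] at ht ⊢
      constructor <;> linarith [ht.1, ht.2]
    obtain ⟨hM, hN⟩ := solve_bound (M := ρ * m - X) (N := ρ * n - Y) (f1 := s * e1 - ρ * x)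
      (f2 := s * e2 - ρ * y) (p := s * γ) (q := s * β) (F := 2 * ρ) (K := K) (κ := κ)
      (by linarith) (by linarith) (by linarith) hκ hsγ hsβ (hf _ _ hs1 hx) (hf _ _ hs2 hy)
    have hCρ : (1 + K) / (1 - κ) * (2 * ρ) = η * r := by rw [← hC, hρ]; field_simp
    rw [hCρ] at hM hN
    have hmem : (m, n) ∈ I := by
      rw [hI']
      have := disc_bound (by positivity) (by positivity) hXY hM hN
      simp only [add_sub_cancel] at this
      exact this.trans (le_of_eq (by ring))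
    refine ⟨e.symm ⟨(m, n), hmem⟩, x, hx, y, hy, ?_⟩
    simp only [Equiv.apply_symm_apply, c, g]
    have hq' : q = p + X • u + Y • v := by rw [add_assoc, ← hqp]; abel
    have hVq : V q = V p + (X * β) • v + (Y * γ) • u + e1 • u + e2 • v := by
      have : V q = V p + A (q - p) + w := by rw [hw]; abel
      rw [this, hqp, hwd, map_add, map_smul, map_smul, hAu, hAv]
      module
    rw [hVq]
    conv_lhs => rw [hq']
    have k3 : q + s • V q = p + s • V p + (X + s * γ * Y + s * e1) • u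
        + (Y + s * β * X + s * e2) • v := by
      rw [hVq]
      conv_lhs => rw [hq']
      module
    rw [← hq', ← hVq, k3, k1, k2]
    module
  · have hg : ∀ i, JJ h (g (e i)) ≤ (1 + η) * JJ h (V p) := by
      intro i
      refine (hJc ?_).le
      have hz := (hI' _).mp (e i).2
      have h4 : ((1 + 3 * η) * r) ^ 2 ≤ (4 * r) ^ 2 := by
        apply pow_le_pow_left₀ (by positivity); nlinarith
      have hm : |ρ * ((e i : ℤ × ℤ).1 : ℝ)| ≤ 4 * r :=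
        abs_le.mpr (abs_le_of_sq_le_sq' (by nlinarith [sq_nonneg (ρ * ((e i : ℤ × ℤ).2 : ℝ))])
          (by positivity))
      have hn : |ρ * ((e i : ℤ × ℤ).2 : ℝ)| ≤ 4 * r :=
        abs_le.mpr (abs_le_of_sq_le_sq' (by nlinarith [sq_nonneg (ρ * ((e i : ℤ × ℤ).1 : ℝ))])
          (by positivity))
      rw [dist_eq_norm]
      simp only [g]
      rw [add_assoc, add_sub_cancel_left]
      refine (norm_add_le _ _).trans_lt ?_
      rw [norm_smul, norm_smul, hu, hv, Real.norm_eq_abs, Real.norm_eq_abs, abs_mul _ β,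
        abs_mul _ γ]
      have k1 := mul_le_mul_of_nonneg_right hm (abs_nonneg β)
      have k2 := mul_le_mul_of_nonneg_right hn (abs_nonneg γ)
      linarith
    have hnorm : ‖ρ • u‖ ^ 2 = ρ ^ 2 := by simp [norm_smul, hu]
    refine (Finset.sum_le_sum fun i _ => mul_le_mul_of_nonneg_left (hg i) (by positivity)).trans ?_
    simp only [hnorm, Finset.sum_const, Finset.card_univ, Fintype.card_fin, nsmul_eq_mul]
    have k1 : (I.card : ℝ) * ρ ^ 2 ≤ Real.pi * ((1 + 4 * η) * r) ^ 2 := by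
      refine (mul_le_mul_of_nonneg_right hcard (by positivity)).trans ?_
      rw [mul_assoc, ← mul_pow]
      refine mul_le_mul_of_nonneg_left (pow_le_pow_left₀ (by positivity) ?_ 2) Real.pi_pos.le
      rw [add_mul, div_mul_cancel₀ _ hρ0.ne']
      linarith
    have k2 := mul_le_mul_of_nonneg_left k1 (show 0 ≤ (1 + η) * JJ h (V p) by positivity)
    linarith

theorem global_cover (D : Set E2) (hD : IsCompact D) (V : E2 → E2) (U : Set E2)
    (hU : IsOpen U) (hDU : D ⊆ U) (hV : ContDiffOn ℝ 1 V U) (L h : ℝ) (hL : 0 < L)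
    (htr : ∀ p ∈ D, LinearMap.trace ℝ _ (fderiv ℝ V p).toLinearMap = 0)
    (hdet : ∀ p ∈ D, -(L ^ 2)⁻¹ < LinearMap.det (fderiv ℝ V p).toLinearMap ∧
      LinearMap.det (fderiv ℝ V p).toLinearMap ≤ 0)
    (ε : ℝ) (hε : 0 < ε) :
    ∃ (k : ℕ) (c a b g : Fin k → E2), SqCov L V D c a b g ∧
      ∑ i, ‖a i‖ ^ 2 * JJ h (g i) ≤ (∫ p in D, JJ h (V p)) + ε := by
  classical
  obtain ⟨T, hT⟩ : ∃ T, T = ∫ p in D, JJ h (V p) := ⟨_, rfl⟩
  have hT0 : 0 ≤ T := hT ▸ integral_nonneg fun p => (JJ_pos h _).le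
  obtain ⟨η, hη, hη1, hηε⟩ : ∃ η : ℝ, 0 < η ∧ η ≤ 1 ∧
      (1 + η) ^ 2 * (1 + 4 * η) ^ 2 * (T + ε / 2) ≤ T + ε := by
    have hc : ContinuousAt (fun η : ℝ => (1 + η) ^ 2 * (1 + 4 * η) ^ 2 * (T + ε / 2)) 0 := by
      fun_prop
    obtain ⟨δ, hδ, hδ'⟩ := Metric.eventually_nhds_iff.mp
      (hc.eventually (gt_mem_nhds (show (1 + (0 : ℝ)) ^ 2 * (1 + 4 * 0) ^ 2 * (T + ε / 2) < T + ε by
        linarith)))
    refine ⟨min 1 (δ / 2), by positivity, min_le_left _ _, (hδ' ?_).le⟩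
    rw [Real.dist_eq, sub_zero, abs_of_pos (by positivity)]
    linarith [min_le_right 1 (δ / 2)]
  obtain ⟨R, hR⟩ := hD.isBounded.subset_ball 0
  obtain ⟨U', hU'⟩ : ∃ U', U' = U ∩ Metric.ball 0 R := ⟨_, rfl⟩
  have hU'o : IsOpen U' := hU' ▸ hU.inter Metric.isOpen_ball
  have hDU' : D ⊆ U' := hU' ▸ Set.subset_inter hDU hR
  let μ : Measure E2 := (volume.restrict U').withDensity fun p => ENNReal.ofReal (JJ h (V p))
  have hfin : IsFiniteMeasure μ := by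
    refine isFiniteMeasure_withDensity (ne_top_of_le_ne_top ?_ (lintegral_mono (g := fun _ => 1)
      fun p => ENNReal.ofReal_le_one.mpr (JJ_le_one h _)))
    rw [lintegral_const, one_mul, Measure.restrict_apply_univ]
    exact ((Metric.isBounded_ball.subset (hU' ▸ Set.inter_subset_right)).measure_lt_top).ne
  have hμ : ∀ S : Set E2, MeasurableSet S → S ⊆ U' →
      μ S = ∫⁻ p in S, ENNReal.ofReal (JJ h (V p)) := by
    intro S hS hSU
    rw [withDensity_apply _ hS, Measure.restrict_restrict hS, Set.inter_eq_left.mpr hSU]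
  have hcont : ContinuousOn (fun p => JJ h (V p)) U :=
    (continuous_JJ h).comp_continuousOn hV.continuousOn
  have hμD : μ D = ENNReal.ofReal T := by
    rw [hμ D hD.measurableSet hDU', hT, ofReal_integral_eq_lintegral_ofReal
      ((hcont.mono hDU).integrableOn_compact hD) (ae_of_all _ fun p => (JJ_pos h _).le)]
  let f : E2 → Set ℝ := fun x => {r | 0 < r ∧
    JJ h (V x) * (Real.pi * r ^ 2) ≤ (1 + η) * (μ (Metric.closedBall x r)).toReal ∧
    ∃ (k : ℕ) (c a b g : Fin k → E2), SqCov L V (Metric.ball x ((1 + η) * r)) c a b g ∧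
      ∑ i, ‖a i‖ ^ 2 * JJ h (g i) ≤ (1 + η) * JJ h (V x) * (Real.pi * ((1 + 4 * η) * r) ^ 2)}
  have hf : ∀ x ∈ D, ∀ δ > 0, (f x ∩ Set.Ioo 0 δ).Nonempty := by
    intro x hx δ hδ
    have hxU := hU.mem_nhds (hDU hx)
    obtain ⟨r₀, hr₀, h₀⟩ := local_cover
      ((hV.contDiffAt hxU).differentiableAt one_ne_zero).hasFDerivAt h hL (htr x hx)
      (hdet x hx).1 (hdet x hx).2 hη hη1
    have hJ := JJ_pos h (V x)
    have hev : ∀ᶠ q in nhds x, JJ h (V x) / (1 + η) < JJ h (V q) :=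
      (hcont.continuousAt hxU).eventually (lt_mem_nhds (by
        rw [div_lt_iff₀ (by positivity)]; nlinarith))
    obtain ⟨r₁, hr₁, h₁⟩ := Metric.eventually_nhds_iff.mp (hev.and (hU'o.mem_nhds (hDU' hx)))
    obtain ⟨r, hr, hr0, hr1, hr2⟩ : ∃ r : ℝ, 0 < r ∧ r < r₀ ∧ r < r₁ ∧ r < δ := by
      refine ⟨min (min r₀ r₁) δ / 2, by positivity, ?_, ?_, ?_⟩
      · linarith [min_le_left (min r₀ r₁) δ, min_le_left r₀ r₁]
      · linarith [min_le_left (min r₀ r₁) δ, min_le_right r₀ r₁]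
      · linarith [min_le_right (min r₀ r₁) δ]
    refine ⟨r, ⟨hr, ?_, h₀ r hr hr0⟩, hr, hr2⟩
    have hb : ∀ q ∈ Metric.closedBall x r, dist q x < r₁ := fun q hq =>
      lt_of_le_of_lt (Metric.mem_closedBall.mp hq) hr1
    have k1 := setLIntegral_mono' (μ := volume) (s := Metric.closedBall x r)
      (f := fun _ => ENNReal.ofReal (JJ h (V x) / (1 + η)))
      (g := fun p => ENNReal.ofReal (JJ h (V p))) measurableSet_closedBall
      (fun q hq => ENNReal.ofReal_le_ofReal (h₁ (hb q hq)).1.le)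
    rw [← hμ _ measurableSet_closedBall (fun q hq => (h₁ (hb q hq)).2), setLIntegral_const,
      EuclideanSpace.volume_closedBall_fin_two, ← ENNReal.ofReal_pow hr.le,
      ← ENNReal.ofReal_mul (by positivity), ← ENNReal.ofReal_mul (by positivity),
      ENNReal.ofReal_le_iff_le_toReal (measure_ne_top _ _), div_mul_eq_mul_div,
      div_le_iff₀ (by positivity)] at k1
    linarith
  obtain ⟨t, r, _, htD, hr, hcov, hsum⟩ := Besicovitch.exists_closedBall_covering_tsum_measure_le μ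
    (ε := ENNReal.ofReal (ε / 2)) (by simpa using hε) f D hf
  obtain ⟨s, hs⟩ := hD.elim_finite_subcover (fun x : t => Metric.ball (x : E2) ((1 + η) * r x))
    (fun _ => Metric.isOpen_ball) (by
      intro q hq
      obtain ⟨x, hx, hq'⟩ := Set.mem_iUnion₂.mp (hcov hq)
      refine Set.mem_iUnion.mpr ⟨⟨x, hx⟩, Metric.closedBall_subset_ball ?_ hq'⟩
      have := (hr x hx).1
      nlinarith)
  choose k c a b g hc1 hc2 using fun x : t => (hr x x.2).2.2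
  let ι := Σ x : s, Fin (k x)
  let e := (Fintype.equivFin ι).symm
  refine ⟨_, fun i => c _ (e i).2, fun i => a _ (e i).2, fun i => b _ (e i).2, fun i => g _ (e i).2,
    ⟨fun i => (hc1 _).1 _, fun q hq σ hσ => ?_⟩, ?_⟩
  · obtain ⟨x, hx, hq'⟩ := Set.mem_iUnion₂.mp (hs hq)
    obtain ⟨j, hj⟩ := (hc1 x).2 q hq' σ hσ
    refine ⟨e.symm ⟨⟨x, hx⟩, j⟩, ?_⟩
    beta_reduce
    rw [Equiv.apply_symm_apply]
    exact hj
  · rw [Equiv.sum_comp e (fun z : ι => ‖a _ z.2‖ ^ 2 * JJ h (g _ z.2)), Fintype.sum_sigma, ← hT]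
    have k1 : ∑ x : s, (μ (Metric.closedBall (x : E2) (r x))).toReal ≤ T + ε / 2 := by
      rw [Finset.sum_coe_sort s (fun x : t => (μ (Metric.closedBall (x : E2) (r x))).toReal),
        ← ENNReal.toReal_sum (fun _ _ => measure_ne_top _ _)]
      refine ENNReal.toReal_le_of_le_ofReal (by linarith) (((ENNReal.sum_le_tsum s).trans hsum).trans ?_)
      rw [hμD, ENNReal.ofReal_add hT0 (by linarith)]
    refine le_trans (Finset.sum_le_sum (g := fun x : s => (1 + η) ^ 2 * (1 + 4 * η) ^ 2 *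
      (μ (Metric.closedBall (x : E2) (r x))).toReal) fun x _ => (hc2 x).trans ?_) ?_
    · have := mul_le_mul_of_nonneg_left (hr _ x.1.2).2.1
        (show 0 ≤ (1 + η) * (1 + 4 * η) ^ 2 by positivity)
      linarith
    · rw [← Finset.mul_sum]
      exact (mul_le_mul_of_nonneg_left k1 (by positivity)).trans hηε

theorem parCov_of_slant (K : Set E3) {ι : Type} (d c a b : ι → E3) (hd : ∀ i, d i ≠ 0)
    (hK : ∀ x ∈ K, ∃ i, ∃ s ∈ Set.Icc (0 : ℝ) 1, ∃ t ∈ Set.Icc (0 : ℝ) 1, ∃ τ : ℝ,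
      x = c i + s • a i + t • b i + τ • d i) :
    ∃ u c' a' b' : ι → E3, ParCov K u c' a' b' ∧
      ∀ i, par (a' i) (b' i) = |trip (a i) (b i) (d i)| / ‖d i‖ := by
  have hn : ∀ i, ‖d i‖ ≠ 0 := fun i => norm_ne_zero_iff.mpr (hd i)
  refine ⟨fun i => ‖d i‖⁻¹ • d i, fun i => proj (d i) (c i), fun i => proj (d i) (a i),
    fun i => proj (d i) (b i), ⟨?_, ?_, ?_⟩, fun i => par_proj (hd i) _ _⟩
  · intro i
    rw [norm_smul, norm_inv, norm_norm, inv_mul_cancel₀ (hn i)]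
  · intro i
    simp only [real_inner_smul_right, inner_proj (hd i), mul_zero, and_self]
  · intro x hx
    obtain ⟨i, s, hs, t, ht, τ, hx⟩ := hK x hx
    refine Set.mem_iUnion.mpr ⟨i, s, hs, t, ht, inner ℝ x (d i) / ‖d i‖, ?_⟩
    have e1 : proj (d i) x = proj (d i) (c i) + s • proj (d i) (a i) + t • proj (d i) (b i) := by
      conv_lhs => rw [hx]
      simp only [proj_add, proj_smul, proj_self (hd i), smul_zero, add_zero]
    rw [← e1]
    simp only [proj, smul_smul]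
    have : inner ℝ x (d i) / ‖d i‖ * ‖d i‖⁻¹ = inner ℝ x (d i) / ‖d i‖ ^ 2 := by
      field_simp
    rw [this]; abel

theorem SqCov.toParCov {L : ℝ} {V : E2 → E2} {D : Set E2} {ι : Type} {c a b g : ι → E2}
    (H : SqCov L V D c a b g) {h : ℝ} (hh : 0 < h) :
    ∃ u c' a' b' : ι → E3, ParCov {z : E3 | ∃ p ∈ D, ∃ x : ℝ, abs x ≤ L ∧
        z = !₂[x, p 0 + x * V p 0, h * (p 1 + x * V p 1)]} u c' a' b' ∧
      ∀ i, par (a' i) (b' i) = h * (‖a i‖ ^ 2 * JJ h (g i)) := by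
  obtain ⟨u, c', a', b', h1, h2⟩ := parCov_of_slant {z : E3 | ∃ p ∈ D, ∃ x : ℝ, abs x ≤ L ∧
        z = !₂[x, p 0 + x * V p 0, h * (p 1 + x * V p 1)]}
    (fun i => !₂[1, g i 0, h * g i 1]) (fun i => !₂[0, c i 0, h * c i 1])
    (fun i => !₂[0, a i 0, h * a i 1]) (fun i => !₂[0, b i 0, h * b i 1])
    (fun i h0 => by simpa using congrArg (fun v : E3 => v 0) h0) (by
      rintro _ ⟨p, hp, x, hx, rfl⟩
      obtain ⟨i, s, hs, t, ht, e⟩ := H.2 p hp x hx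
      refine ⟨i, s, hs, t, ht, x, ?_⟩
      have e0 := congrArg (fun v : E2 => v 0) e
      have e1 := congrArg (fun v : E2 => v 1) e
      simp only [PiLp.add_apply, PiLp.smul_apply, smul_eq_mul] at e0 e1
      ext j
      fin_cases j
      · simp
      · simp [e0]
      · simp [e1]; ring)
  refine ⟨u, c', a', b', h1, fun i => ?_⟩
  obtain ⟨_, k1, k2⟩ := H.1 i
  have k3 : |a i 0 * b i 1 - a i 1 * b i 0| = ‖a i‖ ^ 2 := by
    rw [← Real.sqrt_sq_eq_abs, ← Real.sqrt_sq (show 0 ≤ ‖a i‖ ^ 2 by positivity)]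
    congr 1
    have k4 : ‖b i‖ ^ 2 = ‖a i‖ ^ 2 := by rw [k1]
    rw [inner2] at k2
    rw [normsq2, normsq2] at k4
    rw [normsq2]
    linear_combination (a i 0 ^ 2 + a i 1 ^ 2) * k4 - (a i 0 * b i 0 + a i 1 * b i 1) * k2
  have k5 : trip !₂[0, a i 0, h * a i 1] !₂[0, b i 0, h * b i 1] !₂[1, g i 0, h * g i 1]
      = h * (a i 0 * b i 1 - a i 1 * b i 0) := by
    simp [trip]; ring
  have k6 : ‖(!₂[1, g i 0, h * g i 1] : E3)‖ = Real.sqrt (1 + g i 0 ^ 2 + h ^ 2 * g i 1 ^ 2) := by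
    rw [← Real.sqrt_sq (norm_nonneg _), normsq3]
    simp [mul_pow]
  rw [h2, k5, k6, abs_mul, abs_of_pos hh, k3, JJ]
  ring

end Crest.Agent.R211
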