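import Crest.Agent.R211.Proj

set_option autoImplicit false
open MeasureTheory
open scoped ENNReal

namespace Crest.Agent.R211

theorem par_iso (O : E3 ≃ₗᵢ[ℝ] E3) (a b : E3) : par (O a) (O b) = par a b := by
  simp [par]

theorem TriCov.sim {K : Set E3} {ι : Type} {u p q r : ι → E3} (h : TriCov K u p q r)
    (O : E3 ≃ₗᵢ[ℝ] E3) (c : E3) (l : ℝ) :
    ∃ u' p' q' r' : ι → E3, TriCov ((fun y => c + l • O y) '' K) u' p' q' r' ∧
      ∀ i, par (q' i - p' i) (r' i - p' i) = l ^ 2 * par (q i - p i) (r i - p i) := by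
  obtain ⟨h1, h2, h3⟩ := h
  have hu : ∀ i, ‖O (u i)‖ = 1 := fun i => by simp [h1 i]
  refine ⟨fun i => O (u i), fun i => proj (O (u i)) c + l • O (p i),
    fun i => proj (O (u i)) c + l • O (q i), fun i => proj (O (u i)) c + l • O (r i),
    ⟨hu, ?_, ?_⟩, ?_⟩
  · intro i
    simp [inner_add_left, real_inner_smul_left, inner_proj (ne_zero_of_unit (hu i)), h2 i]
  · rintro _ ⟨x, hx, rfl⟩
    obtain ⟨i, b, hb, t, rfl⟩ := Set.mem_iUnion.mp (h3 hx)
    obtain ⟨s, s', hs, hs', hss, rfl⟩ := (mem_tri_iff _ _ _ _).mp hb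
    refine Set.mem_iUnion.mpr ⟨i, _, (mem_tri_iff _ _ _ _).mpr ⟨s, s', hs, hs', hss, rfl⟩,
      l * t + inner ℝ c (O (u i)), ?_⟩
    simp only [proj_unit (hu i), map_add, map_smul, map_sub]
    module
  · intro i
    have e1 : ∀ a b z : E3, z + l • O a - (z + l • O b) = l • O (a - b) := by
      intro a b z
      simp only [map_sub]; module
    simp only [e1, par_smul, par_iso, abs_mul_abs_self]
    ring

open scoped Pointwise in
theorem area_proj_sim (K : Set E3) (O : E3 ≃ₗᵢ[ℝ] E3) (c : E3) {l : ℝ} (hl : 0 < l) {v : E3}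
    (hv : ‖v‖ = 1) :
    (μHE[2] (proj v '' ((fun y => c + l • O y) '' K))).toReal
      = l ^ 2 * (μHE[2] (proj (O.symm v) '' K)).toReal := by
  have hv' : ‖O.symm v‖ = 1 := by simp [hv]
  have e : proj v '' ((fun y => c + l • O y) '' K)
      = (fun y => proj v c + y) '' (l • (O '' (proj (O.symm v) '' K))) := by
    rw [← Set.image_smul]
    simp only [Set.image_image]
    refine Set.image_congr fun y _ => ?_
    have : inner ℝ (O y) v = inner ℝ y (O.symm v) := by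
      rw [← O.inner_map_map y (O.symm v)]; simp
    rw [proj_add, proj_smul, proj_unit hv (O y), proj_unit hv', this]
    simp
  rw [e, (isometry_add_left _).euclideanHausdorffMeasure_image,
    Measure.euclideanHausdorffMeasure_smul₀ 2 hl.ne', O.isometry.euclideanHausdorffMeasure_image,
    ENNReal.smul_def, smul_eq_mul, ENNReal.toReal_mul]
  simp [abs_of_pos hl]

theorem exists_sim (w : Fin 4 → E3) (ℓ : ℝ) (hℓ : 0 < ℓ)
    (hw : ∀ i j, i ≠ j → dist (w i) (w j) = ℓ) :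
    ∃ (O : E3 ≃ₗᵢ[ℝ] E3) (c : E3),
      convexHull ℝ (Set.range w) = (fun y => c + (ℓ / 2) • O y) '' K0 := by
  have hs : 0 < Real.sqrt 2 := by positivity
  have hs2 : Real.sqrt 2 ^ 2 = 2 := Real.sq_sqrt (by norm_num)
  have hd : ∀ i j, i ≠ j → (w i 0 - w j 0) ^ 2 + (w i 1 - w j 1) ^ 2 + (w i 2 - w j 2) ^ 2
      = ℓ ^ 2 := by
    intro i j hij
    rw [← hw i j hij, dist_eq_norm, normsq3]; simp
  have d01 := hd 0 1 (by decide)
  have d02 := hd 0 2 (by decide)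
  have d03 := hd 0 3 (by decide)
  have d12 := hd 1 2 (by decide)
  have d13 := hd 1 3 (by decide)
  have d23 := hd 2 3 (by decide)
  let e : Fin 3 → E3 := ![ℓ⁻¹ • (w 0 - w 1), ℓ⁻¹ • (w 2 - w 3),
    (Real.sqrt 2 * ℓ)⁻¹ • (w 2 + w 3 - w 0 - w 1)]
  have hon : Orthonormal ℝ e := by
    rw [orthonormal_iff_ite]
    intro i j
    fin_cases i <;> fin_cases j <;>
      simp only [e, real_inner_smul_left, real_inner_smul_right, inner3, PiLp.sub_apply,
        PiLp.add_apply, Fin.zero_eta, Fin.mk_one, Fin.reduceFinMk, Matrix.cons_val_zero,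
        Matrix.cons_val_one, Matrix.cons_val, Fin.isValue, Fin.reduceEq, if_true, if_false] <;>
      field_simp <;> (try rw [hs2]) <;> linarith
  let b : OrthonormalBasis (Fin 3) ℝ E3 := OrthonormalBasis.mk hon
    ((hon.linearIndependent.span_eq_top_of_card_eq_finrank (by simp)).ge)
  have hb : ∀ y : E3, b.repr.symm y = y 0 • e 0 + y 1 • e 1 + y 2 • e 2 := by
    intro y
    rw [← b.sum_repr_symm y, Fin.sum_univ_three]
    simp [b]
  refine ⟨b.repr.symm, (1 / 2 : ℝ) • (w 0 + w 1), ?_⟩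
  let φ : E3 →ᵃ[ℝ] E3 := AffineMap.const ℝ E3 ((1 / 2 : ℝ) • (w 0 + w 1)) +
    ((ℓ / 2) • b.repr.symm.toLinearEquiv.toLinearMap).toAffineMap
  have hφ : (fun y => (1 / 2 : ℝ) • (w 0 + w 1) + (ℓ / 2) • b.repr.symm y) = φ := by
    funext y; simp [φ]
  rw [hφ, K0, AffineMap.image_convexHull, ← hφ]
  congr 1
  have k0 : (1 / 2 : ℝ) • (w 0 + w 1) + (ℓ / 2) • b.repr.symm !₂[1, 0, 0] = w 0 := by
    rw [hb]; ext i; simp [e]; field_simp; ring
  have k1 : (1 / 2 : ℝ) • (w 0 + w 1) + (ℓ / 2) • b.repr.symm !₂[-1, 0, 0] = w 1 := by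
    rw [hb]; ext i; simp [e]; field_simp; ring
  have k2 : (1 / 2 : ℝ) • (w 0 + w 1) + (ℓ / 2) • b.repr.symm !₂[0, 1, Real.sqrt 2] = w 2 := by
    rw [hb]; ext i; simp [e]; field_simp; ring
  have k3 : (1 / 2 : ℝ) • (w 0 + w 1) + (ℓ / 2) • b.repr.symm !₂[0, -1, Real.sqrt 2] = w 3 := by
    rw [hb]; ext i; simp [e]; field_simp; ring
  simp only [Set.image_insert_eq, Set.image_singleton, k0, k1, k2, k3]
  ext x
  simp only [Set.mem_range, Set.mem_insert_iff, Set.mem_singleton_iff]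
  constructor
  · rintro ⟨i, rfl⟩
    fin_cases i <;> simp
  · rintro (rfl | rfl | rfl | rfl) <;> exact ⟨_, rfl⟩

/-- the parallelogram with corner `c` and sides `a`, `b` -/
def Par (c a b : E3) : Set E3 :=
  {x : E3 | ∃ s ∈ Set.Icc (0 : ℝ) 1, ∃ t ∈ Set.Icc (0 : ℝ) 1, x = c + s • a + t • b}

theorem isCompact_Par (c a b : E3) : IsCompact (Par c a b) := by
  have : Par c a b
      = (fun z : ℝ × ℝ => c + z.1 • a + z.2 • b) '' (Set.Icc (0 : ℝ) 1 ×ˢ Set.Icc (0 : ℝ) 1) := by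
    ext x
    constructor
    · rintro ⟨s, hs, t, ht, rfl⟩
      exact ⟨(s, t), ⟨hs, ht⟩, rfl⟩
    · rintro ⟨⟨s, t⟩, ⟨hs, ht⟩, rfl⟩
      exact ⟨s, hs, t, ht, rfl⟩
  rw [this]
  exact (isCompact_Icc.prod isCompact_Icc).image (by fun_prop)

theorem area_Par_toReal (c a b : E3) : (μHE[2] (Par c a b)).toReal = par a b := by
  unfold Par
  rw [area_par, ENNReal.toReal_ofReal (par_nonneg _ _)]

/-- A family of cylinders with parallelogram bases covering `K`. -/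
def ParCov (K : Set E3) {ι : Type} (u c a b : ι → E3) : Prop :=
  (∀ i, ‖u i‖ = 1) ∧
  (∀ i, inner ℝ (c i) (u i) = 0 ∧ inner ℝ (a i) (u i) = 0 ∧ inner ℝ (b i) (u i) = 0) ∧
  K ⊆ ⋃ i, {x : E3 | ∃ s ∈ Set.Icc (0 : ℝ) 1, ∃ t ∈ Set.Icc (0 : ℝ) 1, ∃ τ : ℝ,
    x = c i + s • a i + t • b i + τ • u i}

theorem ParCov.fin {K : Set E3} {ι : Type} [Fintype ι] {u c a b : ι → E3} (h : ParCov K u c a b) :
    ∃ (k : ℕ) (u' c' a' b' : Fin k → E3), ParCov K u' c' a' b' ∧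
      ∑ i, par (a' i) (b' i) = ∑ i, par (a i) (b i) := by
  obtain ⟨h1, h2, h3⟩ := h
  let e := (Fintype.equivFin ι).symm
  refine ⟨_, u ∘ e, c ∘ e, a ∘ e, b ∘ e, ⟨fun i => h1 _, fun i => h2 _, fun x hx => ?_⟩,
    Equiv.sum_comp e (fun i => par (a i) (b i))⟩
  obtain ⟨j, hj⟩ := Set.mem_iUnion.mp (h3 hx)
  exact Set.mem_iUnion.mpr ⟨e.symm j, by simpa using hj⟩

theorem sum_strip (N : ℕ) (hN : 0 < N) :
    ∑ j : Fin N, (1 / (N : ℝ)) * (1 - (j : ℝ) / N) = (1 + 1 / N) / 2 := by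
  have hN' : (0 : ℝ) < N := by exact_mod_cast hN
  have h1 : ∑ j ∈ Finset.range N, (j : ℝ) = N * (N - 1) / 2 := by
    have := Finset.sum_range_id_mul_two N
    have h2 : ((∑ i ∈ Finset.range N, i : ℕ) : ℝ) * 2 = N * (N - 1) := by
      have h3 := congrArg (Nat.cast : ℕ → ℝ) this
      rw [Nat.cast_mul, Nat.cast_mul, Nat.cast_pred hN] at h3
      exact_mod_cast h3
    push_cast at h2
    linarith
  rw [Fin.sum_univ_eq_sum_range (fun j : ℕ => (1 / (N : ℝ)) * (1 - (j : ℝ) / N)),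
    ← Finset.mul_sum, Finset.sum_sub_distrib, ← Finset.sum_div, h1]
  simp
  field_simp
  ring

theorem TriCov.toPar {K : Set E3} {ι : Type} [Fintype ι] {u p q r : ι → E3} (h : TriCov K u p q r)
    (N : ℕ) (hN : 0 < N) :
    ∃ u' c a b : ι × Fin N → E3, ParCov K u' c a b ∧
      ∑ i, par (a i) (b i) = (1 + 1 / N) * ∑ i, par (q i - p i) (r i - p i) / 2 := by
  obtain ⟨h1, h2, h3⟩ := h
  have hN' : (0 : ℝ) < N := by exact_mod_cast hN
  refine ⟨fun z => u z.1, fun z => p z.1 + ((z.2 : ℝ) / N) • (q z.1 - p z.1),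
    fun z => (1 / (N : ℝ)) • (q z.1 - p z.1), fun z => (1 - (z.2 : ℝ) / N) • (r z.1 - p z.1),
    ⟨fun z => h1 _, ?_, ?_⟩, ?_⟩
  · intro z
    simp [inner_add_left, real_inner_smul_left, inner_sub_left, h2 z.1]
  · intro x hx
    obtain ⟨i, b, hb, τ, rfl⟩ := Set.mem_iUnion.mp (h3 hx)
    obtain ⟨s, t, hs, ht, hst, rfl⟩ := (mem_tri_iff _ _ _ _).mp hb
    obtain ⟨j, hj, f1, f2⟩ := exists_sign_change (fun j : ℕ => s * N - j) N hN
      (by simp; positivity) (by nlinarith)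
    simp only [Nat.cast_add, Nat.cast_one] at f1 f2
    have hj' : (j : ℝ) + 1 ≤ N := by exact_mod_cast hj
    have hjN : (j : ℝ) / N < 1 := by rw [div_lt_one hN']; linarith
    have hjs : (j : ℝ) / N ≤ s := by rw [div_le_iff₀ hN']; linarith
    refine Set.mem_iUnion.mpr ⟨(i, ⟨j, hj⟩), s * N - j, ⟨f1, by linarith⟩, t / (1 - j / N),
      ⟨div_nonneg ht (by linarith), by rw [div_le_one (by linarith)]; linarith⟩, τ, ?_⟩
    have hne : (1 - (j : ℝ) / N) ≠ 0 := by linarith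
    simp only [smul_smul, div_mul_cancel₀ _ hne]
    have : s = (j : ℝ) / N + (s * N - j) * (1 / N) := by field_simp; ring
    conv_lhs => rw [this]
    module
  · rw [Fintype.sum_prod_type, Finset.mul_sum]
    refine Finset.sum_congr rfl fun i _ => ?_
    have : ∀ j : Fin N, par ((1 / (N : ℝ)) • (q i - p i)) ((1 - (j : ℝ) / N) • (r i - p i))
        = (1 / (N : ℝ)) * (1 - (j : ℝ) / N) * par (q i - p i) (r i - p i) := by
      intro j
      have hj' : (j : ℝ) ≤ N := by exact_mod_cast j.2.le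
      have hjN : (j : ℝ) / N ≤ 1 := by rw [div_le_one hN']; linarith
      rw [par_smul, abs_of_nonneg (by positivity), abs_of_nonneg (by linarith)]
    simp only [this]
    rw [← Finset.sum_mul, sum_strip N hN]
    ring

theorem ParCov.toOpen {K : Set E3} {k : ℕ} {u c a b : Fin k → E3} (h : ParCov K u c a b)
    {η : ℝ} (hη : 0 < η) :
    ∃ B : Fin k → Set E3,
      (∀ i, Bornology.IsBounded (B i) ∧ ∃ O : Set E3, IsOpen O ∧
        B i = O ∩ {x | inner ℝ x (u i) = 0}) ∧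
      K ⊆ ⋃ i, {x : E3 | ∃ y ∈ B i, ∃ τ : ℝ, x = y + τ • u i} ∧
      ∑ i, (μHE[2] (B i)).toReal ≤ ∑ i, par (a i) (b i) + η := by
  obtain ⟨h1, h2, h3⟩ := h
  have key : ∀ i, ∃ B : Set E3, Par (c i) (a i) (b i) ⊆ B ∧ Bornology.IsBounded B ∧
      (∃ O : Set E3, IsOpen O ∧ B = O ∩ {x | inner ℝ x (u i) = 0}) ∧
      (μHE[2] B).toReal ≤ (μHE[2] (Par (c i) (a i) (b i))).toReal + η / (k + 1) := by
    intro i
    refine exists_open_superset (ne_zero_of_unit (h1 i)) (isCompact_Par _ _ _) ?_ (by positivity)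
    rintro x ⟨s, _, t, _, rfl⟩
    simp [inner_add_left, real_inner_smul_left, h2 i]
  choose B hB1 hB2 hB3 hB4 using key
  refine ⟨B, fun i => ⟨hB2 i, hB3 i⟩, fun x hx => ?_, ?_⟩
  · obtain ⟨i, s, hs, t, ht, τ, rfl⟩ := Set.mem_iUnion.mp (h3 hx)
    exact Set.mem_iUnion.mpr ⟨i, _, hB1 i ⟨s, hs, t, ht, rfl⟩, τ, rfl⟩
  · refine (Finset.sum_le_sum fun i _ => hB4 i).trans ?_
    simp only [area_Par_toReal, Finset.sum_add_distrib, Finset.sum_const, Finset.card_univ,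
      Fintype.card_fin, nsmul_eq_mul]
    have : (k : ℝ) * (η / (k + 1)) ≤ η := by
      rw [← mul_div_assoc, div_le_iff₀ (by positivity)]; nlinarith
    linarith

theorem sum_ratio_lt {k : ℕ} {A D : Fin k → ℝ} {M : ℝ} (hM : 0 < M) (hA : ∀ i, 0 ≤ A i)
    (hD : ∀ i, M ≤ D i) (h : ∑ i, A i < M / 2) : ∑ i, A i / D i < 1 / 2 := by
  calc ∑ i, A i / D i ≤ ∑ i, A i / M :=
        Finset.sum_le_sum fun i _ => div_le_div_of_nonneg_left (hA i) hM (hD i)
    _ = (∑ i, A i) / M := by rw [Finset.sum_div]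
    _ < 1 / 2 := by rw [div_lt_iff₀ hM]; linarith

theorem exists_parCov_regular (w : Fin 4 → E3) (ℓ : ℝ) (hℓ : 0 < ℓ)
    (hw : ∀ i j, i ≠ j → dist (w i) (w j) = ℓ) :
    ∃ M : ℝ, 0 < M ∧
      (∀ v : E3, ‖v‖ = 1 →
        M ≤ (μHE[2] ((fun y => y - inner ℝ y v • v) '' convexHull ℝ (Set.range w))).toReal) ∧
      ∃ (k : ℕ) (u c a b : Fin k → E3), ParCov (convexHull ℝ (Set.range w)) u c a b ∧
        ∑ i, par (a i) (b i) < M / 2 := by
  obtain ⟨O, c, hK⟩ := exists_sim w ℓ hℓ hw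
  have hs : 0 < Real.sqrt 2 := by positivity
  have hl : 0 < ℓ / 2 := by positivity
  have hM : 0 < (ℓ / 2) ^ 2 * Real.sqrt 2 := by positivity
  refine ⟨(ℓ / 2) ^ 2 * Real.sqrt 2, hM, fun v hv => ?_, ?_⟩
  · rw [proj_fun_eq hv, hK, area_proj_sim K0 O c hl hv]
    exact mul_le_mul_of_nonneg_left (sqrt_two_le_area_proj (by simp [hv])) (by positivity)
  · obtain ⟨n, hn⟩ : ∃ n : ℕ, 1000000 ≤ n := ⟨_, le_rfl⟩
    obtain ⟨N, hN⟩ : ∃ N : ℕ, 100000000 ≤ N := ⟨_, le_rfl⟩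
    have hN' : (100000000 : ℝ) ≤ N := by exact_mod_cast hN
    obtain ⟨u, p, q, r, hcov, hA⟩ := exists_triCov_K0 hn
    obtain ⟨u1, p1, q1, r1, hcov1, hA1⟩ := hcov.sim O c (ℓ / 2)
    obtain ⟨u2, c2, a2, b2, hcov2, hA2⟩ := hcov1.toPar N (by omega)
    obtain ⟨k, u3, c3, a3, b3, hcov3, hA3⟩ := hcov2.fin
    refine ⟨k, u3, c3, a3, b3, hK ▸ hcov3, ?_⟩
    rw [hA3, hA2]
    simp only [hA1, mul_div_assoc, ← Finset.mul_sum]
    have h1 : 1 / (N : ℝ) ≤ 1 / 100000000 := by gcongr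
    have h2 : 0 ≤ ∑ i, par (q i - p i) (r i - p i) / 2 :=
      Finset.sum_nonneg fun i _ => div_nonneg (par_nonneg _ _) zero_le_two
    generalize ∑ i, par (q i - p i) (r i - p i) / 2 = S at hA h2
    have h3 : (1 + 1 / (N : ℝ)) * S ≤ (1 + 1 / 100000000) * S := by gcongr
    have h4 : (1 + 1 / (N : ℝ)) * S < Real.sqrt 2 / 2 := by linarith
    have h5 := mul_lt_mul_of_pos_left h4 (show 0 < (ℓ / 2) ^ 2 by positivity)
    linarith

end Crest.Agent.R211
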