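import Crest.Agent.R211.Proj

set_option autoImplicit false
open MeasureTheory
open scoped ENNReal

namespace Crest.Agent.R211

theorem trip_eq_zero {e a b w : E3} (he : ‖e‖ = 1) (ha : inner ℝ a e = 0) (hb : inner ℝ b e = 0)
    (hw : inner ℝ w e = 0) : trip a b w = 0 := by
  have h1 := normsq3 e
  rw [he] at h1
  rw [inner3] at ha hb hw
  have : trip a b w * (e 0 ^ 2 + e 1 ^ 2 + e 2 ^ 2) = 0 := by
    have : trip a b w * (e 0 ^ 2 + e 1 ^ 2 + e 2 ^ 2) =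
        trip a b e * (w 0 * e 0 + w 1 * e 1 + w 2 * e 2)
        + trip b w e * (a 0 * e 0 + a 1 * e 1 + a 2 * e 2)
        + trip w a e * (b 0 * e 0 + b 1 * e 1 + b 2 * e 2) := by
      simp only [trip]; ring
    rw [this, ha, hb, hw]; ring
  rw [← h1] at this
  simpa using this

theorem abs_trip_eq {e a b w : E3} (he : ‖e‖ = 1) (ha : inner ℝ a e = 0) (hb : inner ℝ b e = 0)
    (hw : inner ℝ w e = 0) : |trip a b (e + w)| = par a b := by
  have h0 := trip_eq_zero he ha hb hw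
  have h1 := normsq3 e
  rw [he] at h1
  have e1 : trip a b (e + w) = trip a b e := by
    rw [← add_zero (trip a b e), ← h0]; simp only [trip, PiLp.add_apply]; ring
  rw [e1, par, ← Real.sqrt_sq_eq_abs]
  congr 1
  rw [inner3] at ha hb
  rw [normsq3, normsq3, inner3]
  simp only [trip]
  linear_combination
    (-((a 0 ^ 2 + a 1 ^ 2 + a 2 ^ 2) * (b 0 ^ 2 + b 1 ^ 2 + b 2 ^ 2)
      - (a 0 * b 0 + a 1 * b 1 + a 2 * b 2) ^ 2)) * h1
    + (2 * (a 0 * b 0 + a 1 * b 1 + a 2 * b 2) * (b 0 * e 0 + b 1 * e 1 + b 2 * e 2)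
      - (b 0 ^ 2 + b 1 ^ 2 + b 2 ^ 2) * (a 0 * e 0 + a 1 * e 1 + a 2 * e 2)) * ha
    - (a 0 ^ 2 + a 1 ^ 2 + a 2 ^ 2) * (b 0 * e 0 + b 1 * e 1 + b 2 * e 2) * hb

theorem norm_e_add {e w : E3} (he : ‖e‖ = 1) (hw : inner ℝ w e = 0) :
    ‖e + w‖ = Real.sqrt (1 + ‖w‖ ^ 2) := by
  rw [← Real.sqrt_sq (norm_nonneg (e + w)), norm_add_sq_real, he, real_inner_comm, hw]
  congr 1; ring

theorem e_add_ne {e w : E3} (he : ‖e‖ = 1) (hw : inner ℝ w e = 0) : e + w ≠ 0 := by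
  rw [← norm_pos_iff, norm_e_add he hw]; positivity

theorem par_pos {a b : E3} (hab : LinearIndependent ℝ ![a, b]) : 0 < par a b := by
  rw [LinearIndependent.pair_iff] at hab
  refine Real.sqrt_pos.mpr ?_
  have e : ‖a‖ ^ 2 * ‖b‖ ^ 2 - inner ℝ a b ^ 2 = (a 1 * b 2 - a 2 * b 1) ^ 2
      + (a 2 * b 0 - a 0 * b 2) ^ 2 + (a 0 * b 1 - a 1 * b 0) ^ 2 := by
    rw [normsq3, normsq3, inner3]; ring
  rw [e]
  by_contra hh
  push Not at hh
  have h1 : a 1 * b 2 - a 2 * b 1 = 0 := by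
    nlinarith [sq_nonneg (a 1 * b 2 - a 2 * b 1), sq_nonneg (a 2 * b 0 - a 0 * b 2),
      sq_nonneg (a 0 * b 1 - a 1 * b 0)]
  have h2 : a 2 * b 0 - a 0 * b 2 = 0 := by
    nlinarith [sq_nonneg (a 1 * b 2 - a 2 * b 1), sq_nonneg (a 2 * b 0 - a 0 * b 2),
      sq_nonneg (a 0 * b 1 - a 1 * b 0)]
  have h3 : a 0 * b 1 - a 1 * b 0 = 0 := by
    nlinarith [sq_nonneg (a 1 * b 2 - a 2 * b 1), sq_nonneg (a 2 * b 0 - a 0 * b 2),
      sq_nonneg (a 0 * b 1 - a 1 * b 0)]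
  have k0 := hab (b 0) (-a 0) (by ext i; fin_cases i <;> simp <;> linarith)
  have k1 := hab (b 1) (-a 1) (by ext i; fin_cases i <;> simp <;> linarith)
  have k2 := hab (b 2) (-a 2) (by ext i; fin_cases i <;> simp <;> linarith)
  have := hab 0 1 (by ext i; fin_cases i <;> simp [k0.1, k1.1, k2.1])
  simp at this

theorem linIndep_of_par_pos {a b : E3} (h : 0 < par a b) : LinearIndependent ℝ ![a, b] := by
  rw [LinearIndependent.pair_iff]
  intro s t hst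
  have h0 : s * a 0 + t * b 0 = 0 := by simpa using congrArg (fun v : E3 => v 0) hst
  have h1 : s * a 1 + t * b 1 = 0 := by simpa using congrArg (fun v : E3 => v 1) hst
  have h2 : s * a 2 + t * b 2 = 0 := by simpa using congrArg (fun v : E3 => v 2) hst
  have hp := Real.sqrt_pos.mp h
  rw [normsq3, normsq3, inner3] at hp
  constructor
  · have : s * ((a 0 ^ 2 + a 1 ^ 2 + a 2 ^ 2) * (b 0 ^ 2 + b 1 ^ 2 + b 2 ^ 2)
        - (a 0 * b 0 + a 1 * b 1 + a 2 * b 2) ^ 2) = 0 := by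
      linear_combination (a 0 * (b 0 ^ 2 + b 1 ^ 2 + b 2 ^ 2)
          - b 0 * (a 0 * b 0 + a 1 * b 1 + a 2 * b 2)) * h0
        + (a 1 * (b 0 ^ 2 + b 1 ^ 2 + b 2 ^ 2) - b 1 * (a 0 * b 0 + a 1 * b 1 + a 2 * b 2)) * h1
        + (a 2 * (b 0 ^ 2 + b 1 ^ 2 + b 2 ^ 2) - b 2 * (a 0 * b 0 + a 1 * b 1 + a 2 * b 2)) * h2
    exact (mul_eq_zero.mp this).resolve_right hp.ne'
  · have : t * ((a 0 ^ 2 + a 1 ^ 2 + a 2 ^ 2) * (b 0 ^ 2 + b 1 ^ 2 + b 2 ^ 2)
        - (a 0 * b 0 + a 1 * b 1 + a 2 * b 2) ^ 2) = 0 := by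
      linear_combination (b 0 * (a 0 ^ 2 + a 1 ^ 2 + a 2 ^ 2)
          - a 0 * (a 0 * b 0 + a 1 * b 1 + a 2 * b 2)) * h0
        + (b 1 * (a 0 ^ 2 + a 1 ^ 2 + a 2 ^ 2) - a 1 * (a 0 * b 0 + a 1 * b 1 + a 2 * b 2)) * h1
        + (b 2 * (a 0 ^ 2 + a 1 ^ 2 + a 2 ^ 2) - a 2 * (a 0 * b 0 + a 1 * b 1 + a 2 * b 2)) * h2
    exact (mul_eq_zero.mp this).resolve_right hp.ne'

theorem affInd_of_par_pos {p q r : E3} (h : 0 < par (q - p) (r - p)) :
    AffineIndependent ℝ ![p, q, r] := by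
  have hl := linIndep_of_par_pos h
  rw [LinearIndependent.pair_iff] at hl
  rw [affineIndependent_iff]
  intro s w hw0 hw1 i hi
  classical
  let w' : Fin 3 → ℝ := fun j => if j ∈ s then w j else 0
  have e0 : ∑ j, w' j = 0 := by
    rw [← hw0]; simp [w', Finset.sum_ite_mem]
  have e1 : ∑ j, w' j • (![p, q, r] : Fin 3 → E3) j = 0 := by
    rw [← hw1]; simp [w', ite_smul, Finset.sum_ite_mem]
  rw [Fin.sum_univ_three] at e0 e1
  simp only [Matrix.cons_val_zero, Matrix.cons_val_one, Matrix.cons_val] at e1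
  have e2 : w' 0 = -w' 1 - w' 2 := by linarith
  have := hl (w' 1) (w' 2) (by rw [← e1, e2]; module)
  have e3 : ∀ j, w' j = 0 := by
    intro j
    fin_cases j
    · simp only [Fin.zero_eta]; rw [e2, this.1, this.2]; simp
    · exact this.1
    · exact this.2
  simpa [w', hi] using e3 i

theorem exists_dual {e a b : E3} (he : ‖e‖ = 1) (ha : inner ℝ a e = 0) (hb : inner ℝ b e = 0)
    (hab : 0 < par a b) :
    ∃ a' b' : E3, inner ℝ a a' = 1 ∧ inner ℝ b a' = 0 ∧ inner ℝ a b' = 0 ∧ inner ℝ b b' = 1 ∧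
      ∀ v : E3, inner ℝ v e = 0 → v = inner ℝ v a' • a + inner ℝ v b' • b := by
  have h0 : trip a b e ≠ 0 := by
    have := abs_trip_eq he ha hb (w := 0) (by simp)
    rw [add_zero] at this
    rw [← abs_pos, this]; exact hab
  obtain ⟨T, hT⟩ : ∃ T, T = trip a b e := ⟨_, rfl⟩
  rw [← hT] at h0
  refine ⟨T⁻¹ • !₂[b 1 * e 2 - b 2 * e 1, b 2 * e 0 - b 0 * e 2, b 0 * e 1 - b 1 * e 0],
    T⁻¹ • !₂[e 1 * a 2 - e 2 * a 1, e 2 * a 0 - e 0 * a 2, e 0 * a 1 - e 1 * a 0],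
    ?_, ?_, ?_, ?_, fun v hv => ?_⟩
  · simp only [real_inner_smul_right, inner3]; simp; field_simp; rw [hT, trip]; ring
  · simp only [real_inner_smul_right, inner3]; simp; right; ring
  · simp only [real_inner_smul_right, inner3]; simp; right; ring
  · simp only [real_inner_smul_right, inner3]; simp; field_simp; rw [hT, trip]; ring
  · have hz := trip_eq_zero he ha hb hv
    simp only [real_inner_smul_right, inner3]
    unfold trip at hz hT
    ext i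
    fin_cases i
    · simp; field_simp; linear_combination (v 0) * hT + (e 0) * hz
    · simp; field_simp; linear_combination (v 1) * hT + (e 1) * hz
    · simp; field_simp; linear_combination (v 2) * hT + (e 2) * hz

theorem decomp_w {e a b : E3} (he : ‖e‖ = 1) (ha : inner ℝ a e = 0) (hb : inner ℝ b e = 0)
    (hab : 0 < par a b) {α β : ℝ} {w : ℝ → E3} (hw : ∀ t ∈ Set.Icc α β, inner ℝ (w t) e = 0)
    {lam : ℝ → ℝ} {M : ℝ} (hM : ∀ t ∈ Set.Icc α β, |lam t| ≤ M)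
    (hw' : ∀ t ∈ Set.Icc α β, HasDerivWithinAt w (lam t • (a + t • b)) (Set.Icc α β) t)
    {x y c τ : ℝ} (hx : α ≤ x) (hy : y ≤ β) (hc : c ∈ Set.Icc x y) (hτ : τ ∈ Set.Icc x y) :
    ∃ X Y : ℝ, |X| ≤ M * (y - x) ∧ |Y| ≤ M * (y - x) ^ 2 ∧
      w τ - w c = X • (a + c • b) + Y • b := by
  obtain ⟨a', b', h1, h2, h3, h4, h5⟩ := exists_dual he ha hb hab
  have hsub : Set.Icc x y ⊆ Set.Icc α β := Set.Icc_subset_Icc hx hy
  have hM0 : 0 ≤ M := (abs_nonneg _).trans (hM c (hsub hc))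
  have hτc : |τ - c| ≤ y - x := by
    rw [abs_le]; constructor <;> linarith [hc.1, hc.2, hτ.1, hτ.2]
  have key : ∀ (n : E3) (C : ℝ), (∀ t ∈ Set.Icc x y, |inner ℝ (lam t • (a + t • b)) n| ≤ C) →
      |inner ℝ (w τ - w c) n| ≤ C * (y - x) := by
    intro n C hC
    have hd : ∀ t ∈ Set.Icc x y, HasDerivWithinAt (fun t => inner ℝ (w t) n)
        (inner ℝ (lam t • (a + t • b)) n) (Set.Icc x y) t := by
      intro t ht
      have := ((hw' t (hsub ht)).mono hsub).inner ℝ (hasDerivWithinAt_const t (Set.Icc x y) n)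
      simpa using this
    have := (convex_Icc x y).norm_image_sub_le_of_norm_hasDerivWithin_le hd hC hc hτ
    rw [inner_sub_left]
    have hC0 : 0 ≤ C := (abs_nonneg _).trans (hC c hc)
    exact this.trans (mul_le_mul_of_nonneg_left hτc hC0)
  refine ⟨inner ℝ (w τ - w c) a', inner ℝ (w τ - w c) (b' - c • a'), key _ _ ?_, ?_, ?_⟩
  · intro t ht
    simpa [real_inner_smul_left, inner_add_left, h1, h2] using hM t (hsub ht)
  · have := key (b' - c • a') (M * (y - x)) ?_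
    · linarith
    · intro t ht
      have e1 : inner ℝ (lam t • (a + t • b)) (b' - c • a') = lam t * (t - c) := by
        simp only [real_inner_smul_left, real_inner_smul_right, inner_add_left, inner_sub_right,
          h1, h2, h3, h4]
        ring
      rw [e1, abs_mul]
      refine mul_le_mul (hM t (hsub ht)) ?_ (abs_nonneg _) hM0
      rw [abs_le]; constructor <;> linarith [hc.1, hc.2, ht.1, ht.2]
  · have := h5 (w τ - w c) (by rw [inner_sub_left, hw τ (hsub hτ), hw c (hsub hc), sub_zero])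
    conv_lhs => rw [this]
    rw [inner_sub_right (w τ - w c) b', real_inner_smul_right]
    module

/-- a point of the swept piece lies in the slanted cylinder over the enlarged triangle -/
theorem piece_mem (a b p₀ d d' : E3) {x y c τ ρ s X Y θ Rm : ℝ} (hxy : x < y)
    (hc : c ∈ Set.Icc x y) (hτ : τ ∈ Set.Icc x y) (hρ0 : 0 ≤ ρ) (hρ : ρ ≤ Rm) (hθ : 0 < θ)
    (hθ1 : θ ≤ 1) (hX : |s * X| ≤ θ ^ 2 / 2) (hY : |s * Y| ≤ θ ^ 2 / 2 * (y - x))
    (hd : d' - d = X • (a + c • b) + Y • b) :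
    ∃ s' t' : ℝ, 0 ≤ s' ∧ 0 ≤ t' ∧ s' + t' ≤ 1 ∧
      p₀ + ρ • (a + τ • b) + s • d' = (p₀ - θ • (a + c • b))
        + s' • ((Rm + 2 * θ) • (a + (x - θ * (y - x)) • b))
        + t' • ((Rm + 2 * θ) • (a + (y + θ * (y - x)) • b)) + s • d := by
  have hH : 0 < Rm + 2 * θ := by linarith
  have hΔ : 0 < y - x := by linarith
  have hD : 0 < (1 + 2 * θ) * (y - x) := by positivity
  obtain ⟨hX1, hX2⟩ := abs_le.mp hX
  obtain ⟨hY1, hY2⟩ := abs_le.mp hY
  have hθ2 : θ ^ 2 ≤ θ := by nlinarith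
  obtain ⟨A, hA⟩ : ∃ A, A = ρ + s * X + θ := ⟨_, rfl⟩
  obtain ⟨B, hB⟩ : ∃ B, B = ρ * (τ - c) + s * Y := ⟨_, rfl⟩
  have hA1 : ρ + θ / 2 ≤ A := by linarith
  have hA2 : A ≤ Rm + 2 * θ := by linarith
  have hhi : 0 ≤ A * (y - c + θ * (y - x)) - B := by
    have k1 : (ρ + θ / 2) * (y - c + θ * (y - x)) ≤ A * (y - c + θ * (y - x)) :=
      mul_le_mul_of_nonneg_right hA1 (by have := hc.2; have := mul_pos hθ hΔ; linarith)
    have k2 : ρ * (τ - c) ≤ ρ * (y - c) := mul_le_mul_of_nonneg_left (by linarith [hτ.2]) hρ0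
    have k3 : 0 ≤ ρ * (θ * (y - x)) := by positivity
    have k4 : 0 ≤ θ * (y - c) := mul_nonneg hθ.le (by linarith [hc.2])
    linarith
  have hlo : 0 ≤ B - A * (x - c - θ * (y - x)) := by
    have k1 : (ρ + θ / 2) * (c - x + θ * (y - x)) ≤ A * (c - x + θ * (y - x)) :=
      mul_le_mul_of_nonneg_right hA1 (by have := hc.1; have := mul_pos hθ hΔ; linarith)
    have k2 : ρ * (x - c) ≤ ρ * (τ - c) := mul_le_mul_of_nonneg_left (by linarith [hτ.1]) hρ0
    have k3 : 0 ≤ ρ * (θ * (y - x)) := by positivity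
    have k4 : 0 ≤ θ * (c - x) := mul_nonneg hθ.le (by linarith [hc.1])
    linarith
  refine ⟨(A * (y - c + θ * (y - x)) - B) / ((Rm + 2 * θ) * ((1 + 2 * θ) * (y - x))),
    (B - A * (x - c - θ * (y - x))) / ((Rm + 2 * θ) * ((1 + 2 * θ) * (y - x))),
    by positivity, by positivity, ?_, ?_⟩
  · rw [← add_div, div_le_one (by positivity)]
    have := mul_le_mul_of_nonneg_right hA2 hD.le
    linarith
  · have : d' = d + X • (a + c • b) + Y • b := by rw [add_assoc, ← hd]; abel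
    rw [this, hA, hB]
    have h12 : (1 + 2 * θ) ≠ 0 := by positivity
    generalize Rm + 2 * θ = H at hH
    match_scalars <;> field_simp <;> ring

theorem trip_ab (a b d : E3) (H k k' : ℝ) :
    trip (H • (a + k • b)) (H • (a + k' • b)) d = H ^ 2 * (k' - k) * trip a b d := by
  simp only [trip, PiLp.add_apply, PiLp.smul_apply, smul_eq_mul]; ring

theorem small_tri_subset (a b p₀ d : E3) (w : ℝ → E3) (R : ℝ → ℝ) {x y r L : ℝ} (hxy : x ≤ y)
    (hL : 0 ≤ L) (hr0 : 0 ≤ r) (hr : ∀ τ ∈ Set.Icc x y, r ≤ R τ) :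
    convexHull ℝ {p₀, p₀ + r • (a + x • b), p₀ + r • (a + y • b)} ⊆
      {z : E3 | ∃ τ ∈ Set.Icc x y, ∃ ρ ∈ Set.Icc 0 (R τ), ∃ s : ℝ, abs s ≤ L ∧
        z = p₀ + ρ • (a + τ • b) + s • (d + w τ)} := by
  intro z hz
  obtain ⟨s, t, hs, ht, hst, rfl⟩ := (mem_tri_iff _ _ _ _).mp hz
  rcases eq_or_lt_of_le (add_nonneg hs ht) with h0 | h0
  · have hs0 : s = 0 := by linarith
    have ht0 : t = 0 := by linarith
    refine ⟨x, ⟨le_rfl, hxy⟩, 0, ⟨le_rfl, hr0.trans (hr x ⟨le_rfl, hxy⟩)⟩, 0, by simpa, ?_⟩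
    simp [hs0, ht0]
  · have hτ : (s * x + t * y) / (s + t) ∈ Set.Icc x y := by
      constructor
      · rw [le_div_iff₀ h0]; nlinarith
      · rw [div_le_iff₀ h0]; nlinarith
    refine ⟨_, hτ, (s + t) * r, ⟨by positivity, ?_⟩, 0, by simpa, ?_⟩
    · have := hr _ hτ
      nlinarith
    · match_scalars <;> field_simp <;> ring

theorem sum_telescope {N : ℕ} (f : Fin (N + 1) → ℝ) :
    ∑ i : Fin N, (f i.succ - f i.castSucc) = f (Fin.last N) - f 0 := by
  have h1 := Fin.sum_univ_castSucc f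
  have h2 := Fin.sum_univ_succ f
  rw [Finset.sum_sub_distrib]
  linarith

theorem riemann_bound {α β : ℝ} {F : ℝ → ℝ} (hF : ContinuousOn F (Set.Icc α β)) {N : ℕ}
    {t : Fin (N + 1) → ℝ} (ht : StrictMono t) (h0 : t 0 = α) (h1 : t (Fin.last N) = β)
    {V : Fin N → ℝ} {θ κ : ℝ}
    (hV : ∀ i : Fin N, ∀ τ ∈ Set.Icc (t i.castSucc) (t i.succ),
      |V i - κ * F τ * (t i.succ - t i.castSucc)| ≤ θ * (t i.succ - t i.castSucc)) :
    |∑ i, V i - κ * ∫ τ in α..β, F τ| ≤ θ * (β - α) := by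
  have hmem : ∀ j, t j ∈ Set.Icc α β := fun j =>
    ⟨h0 ▸ ht.monotone (Fin.zero_le j), h1 ▸ ht.monotone (Fin.le_last j)⟩
  have hαβ : α ≤ β := (hmem 0).1.trans (hmem 0).2
  have hint : ∀ x ∈ Set.Icc α β, ∀ y ∈ Set.Icc α β, IntervalIntegrable F volume x y := by
    intro x hx y hy
    refine (hF.mono ?_).intervalIntegrable
    exact Set.uIcc_subset_Icc hx hy
  have e1 : ∫ τ in α..β, F τ = ∑ i : Fin N, ∫ τ in (t i.castSucc)..(t i.succ), F τ := by
    have := sum_telescope (fun j => ∫ τ in α..(t j), F τ)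
    simp only [h0, h1, intervalIntegral.integral_same, sub_zero] at this
    rw [← this]
    refine Finset.sum_congr rfl fun i _ => ?_
    exact intervalIntegral.integral_interval_sub_left (hint _ ⟨le_rfl, hαβ⟩ _ (hmem _))
      (hint _ ⟨le_rfl, hαβ⟩ _ (hmem _))
  have e2 : β - α = ∑ i : Fin N, (t i.succ - t i.castSucc) := by
    rw [sum_telescope, h0, h1]
  rw [e1, e2, Finset.mul_sum, Finset.mul_sum, ← Finset.sum_sub_distrib]
  refine (Finset.abs_sum_le_sum_abs _ _).trans (Finset.sum_le_sum fun i _ => ?_)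
  have hlt : t i.castSucc < t i.succ := ht (Fin.castSucc_lt_succ)
  obtain ⟨τ, hτ, hτ'⟩ := exists_eq_const_mul_intervalIntegral_of_ae_nonneg (μ := volume)
    (f := F) (g := fun _ => (1 : ℝ)) (a := t i.castSucc) (b := t i.succ)
    (hF.mono (Set.uIcc_subset_Icc (hmem _) (hmem _))) (by simp) (by simp)
  simp only [mul_one, intervalIntegral.integral_const, smul_eq_mul] at hτ'
  rw [Set.uIcc_of_le hlt.le] at hτ
  rw [hτ', ← mul_assoc]
  exact hV i τ hτ

theorem exists_piece {N : ℕ} {t : Fin (N + 1) → ℝ} (hlt : t 0 < t (Fin.last N)) {τ : ℝ}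
    (h0 : t 0 ≤ τ) (h1 : τ ≤ t (Fin.last N)) :
    ∃ i : Fin N, τ ∈ Set.Icc (t i.castSucc) (t i.succ) := by
  have hN : 0 < N := by
    rcases Nat.eq_zero_or_pos N with rfl | h
    · simp at hlt
    · exact h
  obtain ⟨j, hj, f1, f2⟩ := exists_sign_change
    (fun j => τ - t ⟨min j N, Nat.lt_succ_of_le (min_le_right _ _)⟩) N hN
    (by simpa using h0) (by simpa [Fin.last] using h1)
  refine ⟨⟨j, hj⟩, ?_, ?_⟩
  · have : (⟨min j N, Nat.lt_succ_of_le (min_le_right _ _)⟩ : Fin (N + 1))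
        = (⟨j, hj⟩ : Fin N).castSucc := Fin.ext (by simp; omega)
    rw [this] at f1; linarith
  · have : (⟨min (j + 1) N, Nat.lt_succ_of_le (min_le_right _ _)⟩ : Fin (N + 1))
        = (⟨j, hj⟩ : Fin N).succ := Fin.ext (by simp; omega)
    rw [this] at f2; linarith

theorem est_alg {g r B θ F V : ℝ} (hg0 : 0 ≤ g) (hg : g ≤ 1 / 2) (hr0 : 0 ≤ r) (hr : r ≤ B)
    (hθ : 0 < θ) (hθ1 : θ ≤ 1) (hF : |F - r ^ 2 * g| ≤ θ)
    (h1 : (max (r - θ) 0) ^ 2 * g ≤ V) (h2 : V ≤ (r + θ + 2 * θ) ^ 2 * (1 + 2 * θ) * g) :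
    |V - F| ≤ θ * (6 * B + 10 + 2 * (B + 3) ^ 2) := by
  obtain ⟨f1, f2⟩ := abs_le.mp hF
  have hB : 0 ≤ B := hr0.trans hr
  have k1 : r ^ 2 - 2 * θ * B ≤ (max (r - θ) 0) ^ 2 := by
    rcases le_total (r - θ) 0 with h | h
    · rw [max_eq_right h]; nlinarith
    · rw [max_eq_left h]; nlinarith
  have k2 : (r + θ + 2 * θ) ^ 2 ≤ (B + 3) ^ 2 := by
    apply pow_le_pow_left₀ (by linarith); linarith
  have k3 : (r + θ + 2 * θ) ^ 2 ≤ r ^ 2 + θ * (6 * B + 9) := by nlinarith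
  have k4 : (r + θ + 2 * θ) ^ 2 * (1 + 2 * θ) ≤ r ^ 2 + θ * (6 * B + 9 + 2 * (B + 3) ^ 2) := by
    have := mul_le_mul_of_nonneg_left k2 hθ.le
    linarith
  have k5 := mul_le_mul_of_nonneg_right k4 hg0
  have k6 := mul_le_mul_of_nonneg_right k1 hg0
  have k7 : θ * (6 * B + 9 + 2 * (B + 3) ^ 2) * g ≤ θ * (6 * B + 9 + 2 * (B + 3) ^ 2) * 1 :=
    mul_le_mul_of_nonneg_left (by linarith) (by positivity)
  have k8 : θ * B * g ≤ θ * B * 1 := mul_le_mul_of_nonneg_left (by linarith) (by positivity)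
  have k9 : 0 ≤ θ * B := by positivity
  have k10 : 0 ≤ θ * (B + 3) ^ 2 := by positivity
  rw [abs_le]; constructor <;> linarith

theorem piece_est {e a b : E3} (p₀ : E3) (he : ‖e‖ = 1) (ha : inner ℝ a e = 0)
    (hb : inner ℝ b e = 0) (hab : 0 < par a b) {α β L : ℝ} (hL : 0 < L) {w : ℝ → E3}
    (hw : ∀ t ∈ Set.Icc α β, inner ℝ (w t) e = 0)
    {lam : ℝ → ℝ} {M : ℝ} (hM : ∀ t ∈ Set.Icc α β, |lam t| ≤ M)
    (hw' : ∀ t ∈ Set.Icc α β, HasDerivWithinAt w (lam t • (a + t • b)) (Set.Icc α β) t)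
    {R : ℝ → ℝ} {B : ℝ} (hR0 : ∀ t ∈ Set.Icc α β, 0 ≤ R t) (hRB : ∀ t ∈ Set.Icc α β, R t ≤ B)
    {x y c θ : ℝ} (hx : α ≤ x) (hy : y ≤ β) (hxy : x < y) (hc : c ∈ Set.Icc x y) (hθ : 0 < θ)
    (hθ1 : θ ≤ 1) (hδ : L * M * (y - x) ≤ θ ^ 2 / 2)
    (hRc : ∀ τ ∈ Set.Icc x y, |R τ - R c| ≤ θ) :
    ∃ p q r : E3, (inner ℝ p (e + w c) = 0 ∧ inner ℝ q (e + w c) = 0 ∧ inner ℝ r (e + w c) = 0) ∧
      AffineIndependent ℝ ![p, q, r] ∧
      proj (e + w c) '' {z : E3 | ∃ τ ∈ Set.Icc x y, ∃ ρ ∈ Set.Icc 0 (R τ), ∃ s : ℝ, abs s ≤ L ∧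
        z = p₀ + ρ • (a + τ • b) + s • (e + w τ)} ⊆ convexHull ℝ {p, q, r} ∧
      ∀ F : ℝ, |F - R c ^ 2 / (2 * Real.sqrt (1 + ‖w c‖ ^ 2))| ≤ θ →
        |(μHE[2] (convexHull ℝ ({p, q, r} : Set E3))).toReal - par a b * F * (y - x)|
          ≤ par a b * (θ * (6 * B + 10 + 2 * (B + 3) ^ 2)) * (y - x) ∧
        |(μHE[2] (proj (e + w c) '' {z : E3 | ∃ τ ∈ Set.Icc x y, ∃ ρ ∈ Set.Icc 0 (R τ), ∃ s : ℝ,
          abs s ≤ L ∧ z = p₀ + ρ • (a + τ • b) + s • (e + w τ)})).toReal - par a b * F * (y - x)|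
          ≤ par a b * (θ * (6 * B + 10 + 2 * (B + 3) ^ 2)) * (y - x) := by
  have hsub : Set.Icc x y ⊆ Set.Icc α β := Set.Icc_subset_Icc hx hy
  have hwc := hw c (hsub hc)
  have hd : e + w c ≠ 0 := e_add_ne he hwc
  have hnd := norm_e_add he hwc
  have htr := abs_trip_eq he ha hb hwc
  have hM0 : 0 ≤ M := (abs_nonneg _).trans (hM c (hsub hc))
  have hΔ : 0 < y - x := by linarith
  have hrc := hR0 c (hsub hc)
  set d := e + w c with hdd
  set S : Set E3 := {z : E3 | ∃ τ ∈ Set.Icc x y, ∃ ρ ∈ Set.Icc 0 (R τ), ∃ s : ℝ, abs s ≤ L ∧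
        z = p₀ + ρ • (a + τ • b) + s • (e + w τ)} with hS
  obtain ⟨P, hP⟩ : ∃ P, P = p₀ - θ • (a + c • b) := ⟨_, rfl⟩
  obtain ⟨U, hU⟩ : ∃ U, U = (R c + θ + 2 * θ) • (a + (x - θ * (y - x)) • b) := ⟨_, rfl⟩
  obtain ⟨W, hW⟩ : ∃ W, W = (R c + θ + 2 * θ) • (a + (y + θ * (y - x)) • b) := ⟨_, rfl⟩
  have hsq : 0 < Real.sqrt (1 + ‖w c‖ ^ 2) := by positivity
  have hsq1 : 1 ≤ Real.sqrt (1 + ‖w c‖ ^ 2) := Real.one_le_sqrt.mpr (by nlinarith [sq_nonneg ‖w c‖])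
  have hpar : par (proj d (P + U) - proj d P) (proj d (P + W) - proj d P) / 2 = par a b *
      ((R c + θ + 2 * θ) ^ 2 * (1 + 2 * θ) * (1 / (2 * Real.sqrt (1 + ‖w c‖ ^ 2)))) * (y - x) := by
    rw [← proj_sub, ← proj_sub, add_sub_cancel_left, add_sub_cancel_left, par_proj hd, hU, hW,
      trip_ab, abs_mul, htr, hnd, abs_of_nonneg (mul_nonneg (by positivity) (by nlinarith))]
    field_simp
    ring
  have hsubT : proj d '' S ⊆ convexHull ℝ {proj d P, proj d (P + U), proj d (P + W)} := by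
    rintro _ ⟨z, ⟨τ, hτ, ρ, hρ, s, hs, rfl⟩, rfl⟩
    obtain ⟨X, Y, hX, hY, hXY⟩ := decomp_w he ha hb hab hw hM hw' hx hy hc hτ
    have hsX : |s * X| ≤ θ ^ 2 / 2 := by
      rw [abs_mul]
      refine le_trans (mul_le_mul hs hX (abs_nonneg _) hL.le) ?_
      linarith
    have hsY : |s * Y| ≤ θ ^ 2 / 2 * (y - x) := by
      rw [abs_mul]
      refine le_trans (mul_le_mul hs hY (abs_nonneg _) hL.le) ?_
      have := mul_le_mul_of_nonneg_right hδ hΔ.le
      linarith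
    obtain ⟨s', t', hs', ht', hst, hz⟩ := piece_mem a b p₀ d (e + w τ) (Rm := R c + θ) hxy hc hτ
      hρ.1 (hρ.2.trans (by linarith [(abs_le.mp (hRc τ hτ)).2])) hθ hθ1 hsX hsY
      (by rw [hdd, ← hXY]; abel)
    rw [hz, ← hP, ← hU, ← hW, mem_tri_iff]
    refine ⟨s', t', hs', ht', hst, ?_⟩
    simp only [proj_add, proj_smul, proj_self hd, smul_zero, add_zero, add_sub_cancel_left]
  have hlow : par a b * ((max (R c - θ) 0) ^ 2 * (1 / (2 * Real.sqrt (1 + ‖w c‖ ^ 2)))) * (y - x)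
      ≤ (μHE[2] (proj d '' S)).toReal := by
    have hfin : μHE[2] (proj d '' S) ≠ ∞ :=
      ne_top_of_le_ne_top (by rw [area_tri]; exact ENNReal.ofReal_ne_top) (measure_mono hsubT)
    obtain ⟨r, hr⟩ : ∃ r, r = max (R c - θ) 0 := ⟨_, rfl⟩
    have h1 := small_tri_subset a b p₀ e w R (r := r) hxy.le hL.le (by rw [hr]; exact le_max_right _ _)
      (fun τ hτ => by
        rw [hr]
        exact max_le (by linarith [(abs_le.mp (hRc τ hτ)).1]) (hR0 τ (hsub hτ)))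
    have h2 := tri_proj_subset (convex_convexHull ℝ ({p₀, p₀ + r • (a + x • b),
      p₀ + r • (a + y • b)} : Set E3)) d (A := p₀) (B := p₀ + r • (a + x • b))
      (C := p₀ + r • (a + y • b)) (subset_convexHull _ _ (by simp))
      (subset_convexHull _ _ (by simp)) (subset_convexHull _ _ (by simp))
    have h3 := ENNReal.toReal_mono hfin (measure_mono (h2.trans (Set.image_mono h1)))
    rw [area_tri_toReal, ← proj_sub, ← proj_sub, add_sub_cancel_left, add_sub_cancel_left,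
      par_proj hd, trip_ab, abs_mul, htr, hnd,
      abs_of_nonneg (mul_nonneg (by positivity) hΔ.le)] at h3
    refine le_trans (le_of_eq ?_) h3
    rw [← hr]
    field_simp
  have hup : (μHE[2] (proj d '' S)).toReal ≤
      par (proj d (P + U) - proj d P) (proj d (P + W) - proj d P) / 2 := by
    rw [← area_tri_toReal]
    exact ENNReal.toReal_mono (by rw [area_tri]; exact ENNReal.ofReal_ne_top) (measure_mono hsubT)
  refine ⟨proj d P, proj d (P + U), proj d (P + W), ⟨inner_proj hd _, inner_proj hd _,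
    inner_proj hd _⟩, affInd_of_par_pos ?_, hsubT, fun F hF => ?_⟩
  · have : 0 < par (proj d (P + U) - proj d P) (proj d (P + W) - proj d P) / 2 := by
      rw [hpar]; positivity
    linarith
  · have hg : 1 / (2 * Real.sqrt (1 + ‖w c‖ ^ 2)) ≤ 1 / 2 := by gcongr; linarith
    have key : ∀ V : ℝ, par a b * ((max (R c - θ) 0) ^ 2 * (1 / (2 * Real.sqrt (1 + ‖w c‖ ^ 2))))
        * (y - x) ≤ V → V ≤ par a b * ((R c + θ + 2 * θ) ^ 2 * (1 + 2 * θ) *
          (1 / (2 * Real.sqrt (1 + ‖w c‖ ^ 2)))) * (y - x) →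
        |V - par a b * F * (y - x)|
          ≤ par a b * (θ * (6 * B + 10 + 2 * (B + 3) ^ 2)) * (y - x) := by
      intro V h1 h2
      have hk : 0 < par a b * (y - x) := by positivity
      have := est_alg (V := V / (par a b * (y - x))) (F := F) (by positivity) hg hrc
        (hRB c (hsub hc)) hθ hθ1 (by rwa [mul_one_div])
        (by rw [le_div_iff₀ hk]; linarith) (by rw [div_le_iff₀ hk]; linarith)
      have e1 : V - par a b * F * (y - x) = (V / (par a b * (y - x)) - F) * (par a b * (y - x)) := by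
        field_simp
      rw [e1, abs_mul, abs_of_pos hk]
      have := mul_le_mul_of_nonneg_right this hk.le
      linarith
    rw [area_tri_toReal]
    exact ⟨key _ (hlow.trans hup) hpar.le, key _ hlow (hup.trans hpar.le)⟩

end Crest.Agent.R211
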