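import Crest.Agent.R211.Area

set_option autoImplicit false
open MeasureTheory
open scoped ENNReal

namespace Crest.Agent.R211

/-- A family of cylinders with triangular bases covering `K`. -/
def TriCov (K : Set E3) {ι : Type} (u p q r : ι → E3) : Prop :=
  (∀ i, ‖u i‖ = 1) ∧
  (∀ i, inner ℝ (p i) (u i) = 0 ∧ inner ℝ (q i) (u i) = 0 ∧ inner ℝ (r i) (u i) = 0) ∧
  K ⊆ ⋃ i, {x : E3 | ∃ b ∈ convexHull ℝ {p i, q i, r i}, ∃ t : ℝ, x = b + t • u i}

theorem triCov_of_slant (K : Set E3) {ι : Type} (d P Q R : ι → E3) (hd : ∀ i, d i ≠ 0)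
    (hK : ∀ x ∈ K, ∃ i, ∃ s t τ : ℝ, 0 ≤ s ∧ 0 ≤ t ∧ s + t ≤ 1 ∧
      x = P i + s • (Q i - P i) + t • (R i - P i) + τ • d i) :
    ∃ u p q r : ι → E3, TriCov K u p q r ∧
      ∀ i, par (q i - p i) (r i - p i) = |trip (Q i - P i) (R i - P i) (d i)| / ‖d i‖ := by
  have hn : ∀ i, ‖d i‖ ≠ 0 := fun i => norm_ne_zero_iff.mpr (hd i)
  refine ⟨fun i => ‖d i‖⁻¹ • d i, fun i => proj (d i) (P i), fun i => proj (d i) (Q i),
    fun i => proj (d i) (R i), ⟨?_, ?_, ?_⟩, ?_⟩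
  · intro i
    rw [norm_smul, norm_inv, norm_norm, inv_mul_cancel₀ (hn i)]
  · intro i
    simp only [real_inner_smul_right, inner_proj (hd i), mul_zero, and_self]
  · intro x hx
    obtain ⟨i, s, t, τ, hs, ht, hst, hx⟩ := hK x hx
    refine Set.mem_iUnion.mpr ⟨i, proj (d i) x, ?_, inner ℝ x (d i) / ‖d i‖, ?_⟩
    · rw [mem_tri_iff]
      refine ⟨s, t, hs, ht, hst, ?_⟩
      rw [hx]
      simp only [proj_add, proj_smul, proj_sub, proj_self (hd i), smul_zero, add_zero]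
    · simp only [proj, smul_smul]
      have : inner ℝ x (d i) / ‖d i‖ * ‖d i‖⁻¹ = inner ℝ x (d i) / ‖d i‖ ^ 2 := by
        field_simp
      rw [this]; abel
  · intro i
    simp only [← proj_sub, par_proj (hd i)]

/-- The regular tetrahedron of the statements. -/
noncomputable def K0 : Set E3 :=
  convexHull ℝ {!₂[1, 0, 0], !₂[-1, 0, 0], !₂[0, 1, Real.sqrt 2], !₂[0, -1, Real.sqrt 2]}

theorem K0_ineq {x : E3} (hx : x ∈ K0) :
    |x 1| ≤ x 2 / Real.sqrt 2 ∧ |x 0| ≤ 1 - x 2 / Real.sqrt 2 := by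
  have hs : Real.sqrt 2 ≠ 0 := by positivity
  have hc : Convex ℝ {x : E3 | |x 1| ≤ x 2 / Real.sqrt 2 ∧ |x 0| ≤ 1 - x 2 / Real.sqrt 2} := by
    rintro x ⟨hx1, hx2⟩ y ⟨hy1, hy2⟩ a b ha hb hab
    simp only [Set.mem_ofPred_eq, PiLp.add_apply, PiLp.smul_apply, smul_eq_mul]
    rw [abs_le] at *
    rw [abs_le] at *
    have e : (a * x 2 + b * y 2) / Real.sqrt 2 = a * (x 2 / Real.sqrt 2) + b * (y 2 / Real.sqrt 2) := by
      ring
    rw [e]
    have k1 := mul_le_mul_of_nonneg_left hx1.1 ha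
    have k2 := mul_le_mul_of_nonneg_left hx1.2 ha
    have k3 := mul_le_mul_of_nonneg_left hx2.1 ha
    have k4 := mul_le_mul_of_nonneg_left hx2.2 ha
    have k5 := mul_le_mul_of_nonneg_left hy1.1 hb
    have k6 := mul_le_mul_of_nonneg_left hy1.2 hb
    have k7 := mul_le_mul_of_nonneg_left hy2.1 hb
    have k8 := mul_le_mul_of_nonneg_left hy2.2 hb
    refine ⟨⟨?_, ?_⟩, ?_, ?_⟩ <;> linarith
  refine convexHull_min ?_ hc hx
  intro y hy
  simp only [Set.mem_insert_iff, Set.mem_singleton_iff] at hy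
  rcases hy with rfl | rfl | rfl | rfl <;> simp

theorem exists_sign_change (F : ℕ → ℝ) (n : ℕ) (hn : 0 < n) (h0 : 0 ≤ F 0) (h1 : F n ≤ 0) :
    ∃ j < n, 0 ≤ F j ∧ F (j + 1) ≤ 0 := by
  induction n with
  | zero => omega
  | succ k ih =>
    by_cases hk : 0 ≤ F k
    · exact ⟨k, Nat.lt_succ_self k, hk, h1⟩
    · push Not at hk
      have hk0 : 0 < k := by
        rcases Nat.eq_zero_or_pos k with rfl | h
        · linarith
        · exact h
      obtain ⟨j, hj, h⟩ := ih hk0 hk.le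
      exact ⟨j, by omega, h⟩

/-- cut-off height of a wedge with midpoint `m` and width `h` -/
noncomputable def RR (h m : ℝ) : ℝ := 1 / 2 + (26 / 1000000 * (m ^ 2 + m ^ 4) + 3 / 100 * h)

theorem cover_core {h m m' p p' c c' e e' : ℝ} (hh : 0 < h) (hm1 : |m| ≤ 1) (hm1' : |m'| ≤ 1)
    (h1 : 26 / 1000000 * (m ^ 2 + m ^ 4) + 3 / 100 * h < p)
    (h2 : 26 / 1000000 * (m' ^ 2 + m' ^ 4) + 3 / 100 * h < p')
    (hea : |e| ≤ h) (hea' : |e'| ≤ h) (hc0 : 0 ≤ c) (hc0' : 0 ≤ c') (hc1 : c ≤ 1) (hc1' : c' ≤ 1)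
    (hmc : m ^ 2 - c ≤ 0) (hmc' : m' ^ 2 - c' ≤ 0)
    (b8 : (c' * m ^ 2 + c * m' ^ 2) / 2 ≤ (m ^ 2 + m ^ 4) / 4 + (m' ^ 2 + m' ^ 4) / 4)
    (key : p + p' = -(1 / 100) * (m * m') * (p' - p) + (1 / 100) ^ 2 *
      ((c' * m ^ 2 + c * m' ^ 2) / 2 + c' * (m ^ 2 - c) * p + c * (m' ^ 2 - c') * p'
        + c' * (m * e) + c * (m' * e')) - 1 / 100 * (m * e' - m' * e)) : False := by
  have b9 : 0 ≤ m ^ 2 + m ^ 4 := by positivity
  have b10 : 0 ≤ m' ^ 2 + m' ^ 4 := by positivity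
  have hp0 : 0 ≤ p := by linarith
  have hp0' : 0 ≤ p' := by linarith
  have hmm : |m * m'| ≤ 1 := by rw [abs_mul]; exact mul_le_one₀ hm1 (abs_nonneg _) hm1'
  have b1 : -(m * m') * (p' - p) ≤ p + p' := by
    obtain ⟨k1, k2⟩ := abs_le.mp hmm
    have k3 := mul_nonneg (sub_nonneg.mpr k2) hp0
    have k4 := mul_nonneg (sub_nonneg.mpr k1) hp0'
    linarith
  have b2 : c' * (m ^ 2 - c) * p ≤ 0 :=
    mul_nonpos_of_nonpos_of_nonneg (mul_nonpos_of_nonneg_of_nonpos hc0' hmc) hp0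
  have b3 : c * (m' ^ 2 - c') * p' ≤ 0 :=
    mul_nonpos_of_nonpos_of_nonneg (mul_nonpos_of_nonneg_of_nonpos hc0 hmc') hp0'
  have habs : ∀ a b : ℝ, |a| ≤ 1 → |b| ≤ h → |a * b| ≤ h := by
    intro a b ha hb
    rw [abs_mul]
    calc |a| * |b| ≤ 1 * h := mul_le_mul ha hb (abs_nonneg _) zero_le_one
      _ = h := one_mul h
  have b4 := abs_le.mp (habs c' _ (by rw [abs_of_nonneg hc0']; exact hc1') (habs m e hm1 hea))
  have b5 := abs_le.mp (habs c _ (by rw [abs_of_nonneg hc0]; exact hc1) (habs m' e' hm1' hea'))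
  have b6 := abs_le.mp (habs m e' hm1 hea')
  have b7 := abs_le.mp (habs m' e hm1' hea)
  linarith [b4.2, b5.2, b6.1, b7.2]

theorem c_facts {h m : ℝ} (hh : 0 < h) (hh1 : h ≤ 1) (hm : |m| ≤ 1 - h / 2) :
    0 ≤ (1 + m ^ 2 - h ^ 2 / 4) / 2 ∧ (1 + m ^ 2 - h ^ 2 / 4) / 2 ≤ 1 ∧
      m ^ 2 - (1 + m ^ 2 - h ^ 2 / 4) / 2 ≤ 0 := by
  have hmsq : m ^ 2 ≤ (1 - h / 2) ^ 2 := by
    rw [← sq_abs m]; exact pow_le_pow_left₀ (abs_nonneg _) hm 2
  refine ⟨?_, ?_, ?_⟩ <;> nlinarith [sq_nonneg m]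

theorem e_facts {h p e : ℝ} (hh : 0 < h) (hp1 : p ≤ 1) (h1 : 0 ≤ e + (1 / 2 + p) * h / 2)
    (h2 : e - (1 / 2 + p) * h / 2 ≤ 0) : |e| ≤ h := by
  have := mul_le_mul_of_nonneg_right hp1 hh.le
  rw [abs_le]; constructor <;> linarith

/-- The covering inequality. -/
theorem cover_alg {h m m' x y z : ℝ} (hh : 0 < h) (hh1 : h ≤ 1) (hm : |m| ≤ 1 - h / 2)
    (hm' : |m'| ≤ 1 - h / 2) (hy : |y| ≤ z) (hx : |x| ≤ 1 - z)
    (f1 : 0 ≤ y - (m - h / 2) * z - x * (1 / 100 * (1 - (m - h / 2) ^ 2) / 2))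
    (f2 : y - (m + h / 2) * z - x * (1 / 100 * (1 - (m + h / 2) ^ 2) / 2) ≤ 0)
    (g1 : 0 ≤ x - (m' - h / 2) * (1 - z) + y * (1 / 100 * (1 - (m' - h / 2) ^ 2) / 2))
    (g2 : x - (m' + h / 2) * (1 - z) + y * (1 / 100 * (1 - (m' + h / 2) ^ 2) / 2) ≤ 0) :
    z - 1 / 100 * m * x ≤ RR h m ∨ 1 - z + 1 / 100 * m' * y ≤ RR h m' := by
  by_contra hcon
  push Not at hcon
  obtain ⟨h1, h2⟩ := hcon
  unfold RR at h1 h2
  have hz0 : 0 ≤ z := (abs_nonneg _).trans hy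
  have hz1 : z ≤ 1 := by linarith [abs_nonneg x]
  have hx1 : |x| ≤ 1 := by linarith
  have hy1 : |y| ≤ 1 := by linarith
  have hm1 : |m| ≤ 1 := by linarith
  have hm1' : |m'| ≤ 1 := by linarith
  have hmx : |m * x| ≤ 1 := by rw [abs_mul]; exact mul_le_one₀ hm1 (abs_nonneg _) hx1
  have hmy : |m' * y| ≤ 1 := by rw [abs_mul]; exact mul_le_one₀ hm1' (abs_nonneg _) hy1
  obtain ⟨hc0, hc1, hmc⟩ := c_facts hh hh1 hm
  obtain ⟨hc0', hc1', hmc'⟩ := c_facts hh hh1 hm'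
  refine cover_core (p := z - 1 / 100 * m * x - 1 / 2) (p' := 1 - z + 1 / 100 * m' * y - 1 / 2)
    (e := y - 1 / 100 * ((1 + m ^ 2 - h ^ 2 / 4) / 2) * x - (z - 1 / 100 * m * x) * m)
    (e' := x + 1 / 100 * ((1 + m' ^ 2 - h ^ 2 / 4) / 2) * y - (1 - z + 1 / 100 * m' * y) * m')
    hh hm1 hm1' (by linarith) (by linarith) ?_ ?_ hc0 hc0' hc1 hc1' hmc hmc' ?_ (by ring)
  · refine e_facts (p := z - 1 / 100 * m * x - 1 / 2) hh ?_ (f1.trans_eq (by ring))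
      ((le_of_eq (by ring)).trans f2)
    linarith [(abs_le.mp hmx).1]
  · refine e_facts (p := 1 - z + 1 / 100 * m' * y - 1 / 2) hh ?_ (g1.trans_eq (by ring))
      ((le_of_eq (by ring)).trans g2)
    linarith [(abs_le.mp hmy).2]
  · have k1 := sq_nonneg (m ^ 2 - m' ^ 2)
    have k2 := sq_nonneg (h * m)
    have k3 := sq_nonneg (h * m')
    linarith

/-- antiderivative used for the telescoping area bound -/
noncomputable def GG (t : ℝ) : ℝ :=
  (1 / 4 - 1 / 320000 + 1 / 10000000) * t - 525 / 100000000 * t ^ 3 / 3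
    + 22875 / 1000000000 * t ^ 5 / 5

theorem inv_sqrt_le {W : ℝ} (hW : 0 ≤ W) : 1 / Real.sqrt (1 + W) ≤ 1 - W / 2 + 3 * W ^ 2 / 8 := by
  have hpos : 0 < 1 - W / 2 + 3 * W ^ 2 / 8 := by nlinarith [sq_nonneg (W - 2 / 3)]
  rw [div_le_iff₀ (by positivity), ← div_le_iff₀' hpos]
  apply Real.le_sqrt_of_sq_le
  rw [div_pow, div_le_iff₀ (by positivity)]
  have : 0 ≤ W ^ 3 * (5 / 8 - 15 * W / 64 + 9 * W ^ 2 / 64) :=
    mul_nonneg (by positivity) (by nlinarith [sq_nonneg (W - 1)])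
  nlinarith

theorem area_core {q W : ℝ} (hq0 : 0 ≤ q) (hq1 : q ≤ 53 / 1000000) (hW0 : 0 ≤ W)
    (hW1 : W ≤ 31 / 100000) :
    (1 / 2 + q) ^ 2 * (1 / Real.sqrt (1 + W)) ≤ 1 / 4 + q - W / 8 + 13 / 1000000000 := by
  have hs := inv_sqrt_le hW0
  have hW2 : W ^ 2 ≤ 10 / 100000000 := by nlinarith
  have hq2 : q ^ 2 ≤ 3 / 1000000000 := by nlinarith
  have hWW : W ^ 2 ≤ W := by nlinarith
  have hF1 : 1 - W / 2 + 3 * W ^ 2 / 8 ≤ 1 := by linarith
  have h1 : (q + q ^ 2) * (1 - W / 2 + 3 * W ^ 2 / 8) ≤ (q + q ^ 2) * 1 :=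
    mul_le_mul_of_nonneg_left hF1 (by positivity)
  calc (1 / 2 + q) ^ 2 * (1 / Real.sqrt (1 + W)) ≤ (1 / 2 + q) ^ 2 * (1 - W / 2 + 3 * W ^ 2 / 8) :=
        mul_le_mul_of_nonneg_left hs (by positivity)
    _ ≤ _ := by linarith

theorem area_alg {h m : ℝ} (hh : 0 < h) (hh1 : h ≤ 2 / 1000000) (hm : |m| ≤ 1) :
    h * RR h m ^ 2 / Real.sqrt (1 + ((1 / 100 * ((1 + m ^ 2 - h ^ 2 / 4) / 2)) ^ 2
      + 2 * (1 / 100 * m) ^ 2)) ≤ GG (m + h / 2) - GG (m - h / 2) := by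
  have hm2 : m ^ 2 ≤ 1 := by rw [← sq_abs]; nlinarith [abs_nonneg m]
  have hm20 : 0 ≤ m ^ 2 := by positivity
  have hm4 : m ^ 4 ≤ 1 := by nlinarith
  have hm40 : 0 ≤ m ^ 4 := by positivity
  have hh2 : h ^ 2 ≤ 1 / 100000000000 := by nlinarith
  have hh20 : 0 ≤ h ^ 2 := by positivity
  have hh40 : 0 ≤ h ^ 4 := by positivity
  have hh4 : h ^ 4 ≤ 1 / 100000000000 := by nlinarith
  have hhm0 : 0 ≤ h ^ 2 * m ^ 2 := by positivity
  have hhm : h ^ 2 * m ^ 2 ≤ h ^ 2 := by nlinarith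
  have hT := area_core (q := 26 / 1000000 * (m ^ 2 + m ^ 4) + 3 / 100 * h)
    (W := (1 / 100 * ((1 + m ^ 2 - h ^ 2 / 4) / 2)) ^ 2 + 2 * (1 / 100 * m) ^ 2)
    (by positivity) (by linarith) (by positivity) (by linarith)
  have hG : GG (m + h / 2) - GG (m - h / 2) = h * ((1 / 4 - 1 / 320000 + 1 / 10000000)
      - 525 / 100000000 * (m ^ 2 + h ^ 2 / 12)
      + 22875 / 1000000000 * (m ^ 4 + h ^ 2 * m ^ 2 / 2 + h ^ 4 / 80)) := by
    unfold GG; ring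
  rw [hG, mul_div_assoc]
  apply mul_le_mul_of_nonneg_left _ hh.le
  rw [← mul_one_div]
  refine hT.trans ?_
  linarith

theorem GG_total : GG 1 - GG (-1) ≤ 1 / 2 - 1 / 100000000 := by
  unfold GG; norm_num

theorem abs_mid {n j : ℕ} (hj : j < n) :
    |(-1 + ((j : ℝ) + 1 / 2) * (2 / n))| ≤ 1 - 2 / (n : ℝ) / 2 := by
  have hn : (0 : ℝ) < n := by exact_mod_cast (by omega : 0 < n)
  have hj' : (j : ℝ) + 1 ≤ n := by exact_mod_cast hj
  have hj0 : (0 : ℝ) ≤ j := Nat.cast_nonneg j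
  have h1 : ((j : ℝ) + 1) * (2 / n) ≤ 2 := by
    rw [← mul_div_assoc, div_le_iff₀ hn]; linarith
  have h2 : 0 ≤ (j : ℝ) * (2 / n) := by positivity
  rw [abs_le]; constructor <;> linarith

theorem sum_area_le {n : ℕ} (hn : 1000000 ≤ n) :
    ∑ j : Fin n, (2 / (n : ℝ)) * RR (2 / n) (-1 + ((j : ℝ) + 1 / 2) * (2 / n)) ^ 2 /
      Real.sqrt (1 + ((1 / 100 * ((1 + (-1 + ((j : ℝ) + 1 / 2) * (2 / n)) ^ 2
        - (2 / (n : ℝ)) ^ 2 / 4) / 2)) ^ 2
      + 2 * (1 / 100 * (-1 + ((j : ℝ) + 1 / 2) * (2 / n))) ^ 2)) ≤ 1 / 2 - 1 / 100000000 := by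
  have hn' : (1000000 : ℝ) ≤ n := by exact_mod_cast hn
  have hn0 : (0 : ℝ) < n := by linarith
  have hh : (0 : ℝ) < 2 / n := by positivity
  have hh1 : (2 : ℝ) / n ≤ 2 / 1000000 := by gcongr
  refine le_trans (Finset.sum_le_sum (g := fun j : Fin n =>
    GG (-1 + (((j : ℕ) + 1 : ℕ) : ℝ) * (2 / n)) - GG (-1 + ((j : ℕ) : ℝ) * (2 / n))) ?_) ?_
  · intro j _
    have := area_alg hh hh1 ((abs_mid j.2).trans (by linarith))
    have e1 : (-1 + (((j : ℕ) + 1 : ℕ) : ℝ) * (2 / n))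
        = -1 + ((j : ℝ) + 1 / 2) * (2 / n) + 2 / n / 2 := by push_cast; ring
    have e2 : (-1 + ((j : ℕ) : ℝ) * (2 / n)) = -1 + ((j : ℝ) + 1 / 2) * (2 / n) - 2 / n / 2 := by
      ring
    simp only [e1, e2]
    exact this
  · rw [Fin.sum_univ_eq_sum_range (fun j : ℕ => GG (-1 + ((j + 1 : ℕ) : ℝ) * (2 / n))
      - GG (-1 + (j : ℝ) * (2 / n))),
      Finset.sum_range_sub (fun j : ℕ => GG (-1 + (j : ℝ) * (2 / n)))]
    have : (-1 + (n : ℝ) * (2 / n)) = 1 := by field_simp; norm_num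
    rw [this]
    simpa using GG_total

theorem exists_triCov_K0 {n : ℕ} (hn : 1000000 ≤ n) :
    ∃ u p q r : Fin n ⊕ Fin n → E3, TriCov K0 u p q r ∧
      ∑ i, par (q i - p i) (r i - p i) / 2 ≤ Real.sqrt 2 * (1 / 2 - 1 / 100000000) := by
  have hn' : (1000000 : ℝ) ≤ n := by exact_mod_cast hn
  have hn0 : (0 : ℝ) < n := by linarith
  obtain ⟨h, hh⟩ : ∃ h : ℝ, h = 2 / n := ⟨_, rfl⟩
  have hh0 : 0 < h := by rw [hh]; positivity
  have hh1 : h ≤ 1 := by rw [hh, div_le_one hn0]; linarith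
  have hnh : n * h = 2 := by rw [hh]; field_simp
  let m : Fin n → ℝ := fun j => -1 + ((j : ℝ) + 1 / 2) * h
  have hm : ∀ j, |m j| ≤ 1 - h / 2 := fun j => by
    simp only [m, hh]; exact abs_mid j.2
  let c : Fin n → ℝ := fun j => (1 + m j ^ 2 - h ^ 2 / 4) / 2
  have hR : ∀ j, 0 < RR h (m j) := fun j => by unfold RR; positivity
  have hs : 0 < Real.sqrt 2 := by positivity
  have hs2 : Real.sqrt 2 ^ 2 = 2 := Real.sq_sqrt (by norm_num)
  let d : Fin n ⊕ Fin n → E3 := Sum.elim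
    (fun j => !₂[1, 1 / 100 * c j, Real.sqrt 2 * (1 / 100 * m j)])
    (fun j => !₂[-(1 / 100 * c j), 1, Real.sqrt 2 * (1 / 100 * m j)])
  let P : Fin n ⊕ Fin n → E3 := Sum.elim (fun _ => !₂[0, 0, 0]) (fun _ => !₂[0, 0, Real.sqrt 2])
  let Q : Fin n ⊕ Fin n → E3 := Sum.elim
    (fun j => !₂[0, RR h (m j) * (m j - h / 2), RR h (m j) * Real.sqrt 2])
    (fun j => !₂[RR h (m j) * (m j - h / 2), 0, Real.sqrt 2 - RR h (m j) * Real.sqrt 2])
  let R : Fin n ⊕ Fin n → E3 := Sum.elim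
    (fun j => !₂[0, RR h (m j) * (m j + h / 2), RR h (m j) * Real.sqrt 2])
    (fun j => !₂[RR h (m j) * (m j + h / 2), 0, Real.sqrt 2 - RR h (m j) * Real.sqrt 2])
  have hd : ∀ i, d i ≠ 0 := by
    rintro (j | j) h0
    · have := congrArg (fun v : E3 => v 0) h0
      simp [d] at this
    · have := congrArg (fun v : E3 => v 1) h0
      simp [d] at this
  obtain ⟨u, p, q, r, hcov, harea⟩ := triCov_of_slant K0 d P Q R hd (by
    intro x hx
    obtain ⟨hy, hx0⟩ := K0_ineq hx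
    obtain ⟨z, hz⟩ : ∃ z, z = x 2 / Real.sqrt 2 := ⟨_, rfl⟩
    have hz' : x 2 = Real.sqrt 2 * z := by rw [hz]; field_simp
    rw [← hz] at hy hx0
    obtain ⟨j, hj, f1, f2⟩ := exists_sign_change
      (fun j : ℕ => x 1 - (-1 + j * h) * z - x 0 * (1 / 100 * (1 - (-1 + j * h) ^ 2) / 2)) n
      (by omega) (by have := (abs_le.mp hy).1; simp; linarith)
      (by have := (abs_le.mp hy).2; simp only [hnh]; norm_num; linarith)
    obtain ⟨k, hk, g1, g2⟩ := exists_sign_change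
      (fun j : ℕ => x 0 - (-1 + j * h) * (1 - z) + x 1 * (1 / 100 * (1 - (-1 + j * h) ^ 2) / 2)) n
      (by omega) (by have := (abs_le.mp hx0).1; simp; linarith)
      (by have := (abs_le.mp hx0).2; simp only [hnh]; norm_num; linarith)
    have e1 : ∀ j : Fin n, (-1 + ((j : ℕ) : ℝ) * h) = m j - h / 2 := fun j => by simp only [m]; ring
    have e2 : ∀ j : Fin n, (-1 + (((j : ℕ) + 1 : ℕ) : ℝ) * h) = m j + h / 2 := fun j => by
      simp only [m]; push_cast; ring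
    obtain ⟨j, rfl⟩ : ∃ j' : Fin n, (j' : ℕ) = j := ⟨⟨j, hj⟩, rfl⟩
    obtain ⟨k, rfl⟩ : ∃ k' : Fin n, (k' : ℕ) = k := ⟨⟨k, hk⟩, rfl⟩
    simp only [e1] at f1 g1
    simp only [e2] at f2 g2
    rcases cover_alg hh0 hh1 (hm j) (hm k) hy hx0 f1 f2 g1 g2 with hc | hc
    · have hRj := hR j
      refine ⟨Sum.inl j,
        -(x 1 - (m j + h / 2) * z - x 0 * (1 / 100 * (1 - (m j + h / 2) ^ 2) / 2)) / (RR h (m j) * h),
        (x 1 - (m j - h / 2) * z - x 0 * (1 / 100 * (1 - (m j - h / 2) ^ 2) / 2)) / (RR h (m j) * h),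
        x 0, div_nonneg (by linarith) (by positivity), div_nonneg f1 (by positivity), ?_, ?_⟩
      · rw [← add_div, div_le_one (by positivity)]
        have := mul_le_mul_of_nonneg_right hc hh0.le
        linarith
      · ext i
        fin_cases i
        · simp [d, P, Q, R]
        · simp [d, P, Q, R, c]
          field_simp
          ring
        · simp [d, P, Q, R, hz']
          field_simp
          ring
    · have hRk := hR k
      refine ⟨Sum.inr k,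
        -(x 0 - (m k + h / 2) * (1 - z) + x 1 * (1 / 100 * (1 - (m k + h / 2) ^ 2) / 2))
          / (RR h (m k) * h),
        (x 0 - (m k - h / 2) * (1 - z) + x 1 * (1 / 100 * (1 - (m k - h / 2) ^ 2) / 2))
          / (RR h (m k) * h),
        x 1, div_nonneg (by linarith) (by positivity), div_nonneg g1 (by positivity), ?_, ?_⟩
      · rw [← add_div, div_le_one (by positivity)]
        have := mul_le_mul_of_nonneg_right hc hh0.le
        linarith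
      · ext i
        fin_cases i
        · simp [d, P, Q, R, c]
          field_simp
          ring
        · simp [d, P, Q, R]
        · simp [d, P, Q, R, hz']
          field_simp
          ring)
  refine ⟨u, p, q, r, hcov, ?_⟩
  have hnorm : ∀ i, ‖d i‖ = Real.sqrt (1 + ((1 / 100 * c (Sum.elim id id i)) ^ 2
      + 2 * (1 / 100 * m (Sum.elim id id i)) ^ 2)) := by
    intro i
    rw [← Real.sqrt_sq (norm_nonneg (d i)), normsq3]
    congr 1
    rcases i with j | j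
    · simp [d, mul_pow, hs2]; ring
    · simp [d, mul_pow, hs2]; ring
  have htrip : ∀ i, |trip (Q i - P i) (R i - P i) (d i)|
      = Real.sqrt 2 * (h * RR h (m (Sum.elim id id i)) ^ 2) := by
    rintro (j | j)
    · have : trip (Q (Sum.inl j) - P (Sum.inl j)) (R (Sum.inl j) - P (Sum.inl j)) (d (Sum.inl j))
          = -(Real.sqrt 2 * (h * RR h (m j) ^ 2)) := by
        simp [trip, d, P, Q, R]; ring
      rw [this, abs_neg, abs_of_nonneg (by positivity)]; rfl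
    · have : trip (Q (Sum.inr j) - P (Sum.inr j)) (R (Sum.inr j) - P (Sum.inr j)) (d (Sum.inr j))
          = -(Real.sqrt 2 * (h * RR h (m j) ^ 2)) := by
        simp [trip, d, P, Q, R]; ring
      rw [this, abs_neg, abs_of_nonneg (by positivity)]; rfl
  have hsum := sum_area_le hn
  rw [← hh] at hsum
  simp only [harea, hnorm, htrip, Fintype.sum_sum_type, Sum.elim_inl, Sum.elim_inr, id]
  rw [← Finset.sum_add_distrib]
  refine le_trans (le_of_eq ?_) (mul_le_mul_of_nonneg_left hsum hs.le)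
  rw [Finset.mul_sum]
  refine Finset.sum_congr rfl fun j _ => ?_
  simp only [c, m]
  ring

end Crest.Agent.R211
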